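import Vale.Agent.P164.Bdl.B1
import Mathlib.Analysis.SpecialFunctions.Complex.LogBounds

/-!
# P153, block M1: expansion of the argument of the Loewner flow at infinity
-/

set_option linter.unusedSectionVars false
set_option linter.unusedVariables false

namespace Vale.Agent.P153.M1

open Vale.Agent.P164 Complex Set

variable {W : ℝ → ℝ} {z : ℂ} {t T R : ℝ} {g : ℝ → ℂ}

/-- Solutions started high above the real line exist and stay high. -/
theorem exists_sol (ht : 0 ≤ t) (hW : ContinuousOn W (Icc 0 t)) (hz : 0 < z.im)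
    (h8 : 8 * t ≤ z.im ^ 2) : ∃ g, IsLoewnerSol W z t g ∧
      ∀ s ∈ Icc 0 t, z.im / 2 ≤ (g s).im ∧ ‖g s - z‖ ≤ 4 * s / z.im := by
  set c : ℝ := z.im / 2 with hc
  have hc0 : 0 < c := by positivity
  obtain ⟨α, hα0, hα⟩ := exists_global (v := fun s x => 2 / (lift c x - (W s : ℂ)))
    (K := (2 / c ^ 2).toNNReal) (L := (2 / c).toNNReal) ht
    (fun s _ => lift_field_lip hc0 (W s))
    (fun x => by
      refine ContinuousOn.div continuousOn_const ?_ ?_
      · exact continuousOn_const.sub (Complex.continuous_ofReal.comp_continuousOn hW)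
      · intro s _
        exact sub_ne_zero_of_im (hc0.trans_le (lift_im _ x)) _)
    (fun s _ x => by
      rw [Real.coe_toNNReal _ (by positivity)]
      exact norm_field_le hc0 (lift_im _ x) (W s)) z
  have h1 : ∀ s ∈ Icc 0 t, ‖α s - z‖ ≤ 4 * s / z.im := by
    intro s hs
    have h2 := norm_image_sub_le_of_norm_deriv_le_segment' (C := 2 / c) hα
      (fun u _ => norm_field_le hc0 (lift_im _ _) (W u)) s hs
    rw [hα0, sub_zero] at h2
    refine h2.trans (le_of_eq ?_)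
    rw [hc]
    field_simp
    ring
  have h2 : ∀ s ∈ Icc 0 t, c ≤ (α s).im := by
    intro s hs
    have h3 := (Complex.abs_im_le_norm (α s - z)).trans (h1 s hs)
    have h4 : 4 * s / z.im ≤ c := by
      rw [div_le_iff₀ hz, hc]
      have := hs.2
      nlinarith
    rw [Complex.sub_im] at h3
    have h5 := (abs_le.1 h3).1
    have h6 : z.im = 2 * c := by rw [hc]; ring
    linarith
  refine ⟨α, ⟨hα0, fun s hs => ⟨hc0.trans_le (h2 s hs), ?_⟩⟩, fun s hs => ⟨h2 s hs, h1 s hs⟩⟩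
  have := hα s hs
  rwa [lift_eq (h2 s hs)] at this

theorem second_order (ht : 0 ≤ t) (hR : ∀ s ∈ Icc 0 t, |W s| ≤ R) (hz : 0 < z.im)
    (hg : IsLoewnerSol W z t g)
    (hb : ∀ s ∈ Icc 0 t, z.im / 2 ≤ (g s).im ∧ ‖g s - z‖ ≤ 4 * s / z.im) :
    ‖g t - z - 2 * t / z‖ ≤ 4 * t * (4 * t / z.im + R) / z.im ^ 2 := by
  have hz0 : z ≠ 0 := by rintro rfl; simp at hz
  have hzn : z.im ≤ ‖z‖ := (le_abs_self _).trans (Complex.abs_im_le_norm z)
  have hzn0 : 0 < ‖z‖ := norm_pos_iff.2 hz0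
  have hf : ∀ s ∈ Icc 0 t, HasDerivWithinAt (fun s : ℝ => g s - 2 * (s : ℂ) / z)
      (2 / (g s - (W s : ℂ)) - 2 / z) (Icc 0 t) s := by
    intro s hs
    have h1 := (hg.2 s hs).2
    have h2 : HasDerivWithinAt (fun s : ℝ => 2 * (s : ℂ) / z) (2 * 1 / z) (Icc 0 t) s := by
      have h3 : HasDerivAt (fun s : ℝ => (s : ℂ)) 1 s := Complex.ofRealCLM.hasDerivAt
      exact ((h3.const_mul 2).div_const z).hasDerivWithinAt
    rw [mul_one] at h2
    exact h1.sub h2
  have hbd : ∀ s ∈ Ico 0 t, ‖2 / (g s - (W s : ℂ)) - 2 / z‖ ≤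
      4 * (4 * t / z.im + R) / z.im ^ 2 := by
    intro s hs
    have hs' : s ∈ Icc 0 t := ⟨hs.1, hs.2.le⟩
    obtain ⟨h1, h2⟩ := hb s hs'
    have h3 : z.im / 2 ≤ ‖g s - (W s : ℂ)‖ := h1.trans (im_le_norm_sub _ _)
    have h3' : 0 < ‖g s - (W s : ℂ)‖ := lt_of_lt_of_le (by positivity) h3
    have h4 : g s - (W s : ℂ) ≠ 0 := norm_pos_iff.1 h3'
    have e1 : 2 / (g s - (W s : ℂ)) - 2 / z =
        2 * ((W s : ℂ) - (g s - z)) / ((g s - (W s : ℂ)) * z) := by
      field_simp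
      ring
    rw [e1, norm_div, norm_mul, norm_mul]
    have h5 : ‖(W s : ℂ) - (g s - z)‖ ≤ 4 * t / z.im + R := by
      refine (norm_sub_le _ _).trans ?_
      rw [Complex.norm_real, Real.norm_eq_abs]
      have h6 := hR s hs'
      have h7 : 4 * s / z.im ≤ 4 * t / z.im := by
        apply div_le_div_of_nonneg_right _ hz.le
        linarith [hs.2]
      linarith
    have h6 : (0 : ℝ) ≤ 4 * t / z.im + R := (norm_nonneg _).trans h5
    have h7 : z.im ^ 2 / 2 ≤ ‖g s - (W s : ℂ)‖ * ‖z‖ := by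
      calc z.im ^ 2 / 2 = (z.im / 2) * z.im := by ring
        _ ≤ _ := mul_le_mul h3 hzn hz.le h3'.le
    have h8 : ‖(2 : ℂ)‖ = 2 := by simp
    rw [h8]
    calc 2 * ‖(W s : ℂ) - (g s - z)‖ / (‖g s - (W s : ℂ)‖ * ‖z‖)
        ≤ 2 * (4 * t / z.im + R) / (z.im ^ 2 / 2) :=
          div_le_div₀ (by positivity) (by linarith) (by positivity) h7
      _ = 4 * (4 * t / z.im + R) / z.im ^ 2 := by field_simp; ring
  have key := norm_image_sub_le_of_norm_deriv_le_segment' hf hbd t ⟨ht, le_rfl⟩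
  simp only [sub_zero, ofReal_zero, mul_zero, zero_div] at key
  rw [hg.1] at key
  have e2 : g t - z - 2 * t / z = g t - 2 * (t : ℂ) / z - z := by ring
  rw [e2]
  refine key.trans (le_of_eq ?_)
  ring

/-- In the upper half-plane the argument of a quotient is the difference of the arguments. -/
theorem arg_div_upper {w z : ℂ} (hw : 0 < w.im) (hz : 0 < z.im) :
    arg (w / z) = arg w - arg z := by
  have hw0 : w ≠ 0 := by rintro rfl; simp at hw
  have hz0 : z ≠ 0 := by rintro rfl; simp at hz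
  have a1 : 0 < arg w ∧ arg w < Real.pi := by
    refine ⟨lt_of_le_of_ne (Complex.arg_nonneg_iff.2 hw.le) ?_, ?_⟩
    · intro h
      have := Complex.arg_eq_zero_iff.1 h.symm
      linarith [this.2]
    · refine lt_of_le_of_ne (Complex.arg_le_pi w) fun h => ?_
      have := (Complex.arg_eq_pi_iff.1 h).2
      linarith
  have a2 : 0 < arg z ∧ arg z < Real.pi := by
    refine ⟨lt_of_le_of_ne (Complex.arg_nonneg_iff.2 hz.le) ?_, ?_⟩
    · intro h
      have := Complex.arg_eq_zero_iff.1 h.symm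
      linarith [this.2]
    · refine lt_of_le_of_ne (Complex.arg_le_pi z) fun h => ?_
      have := (Complex.arg_eq_pi_iff.1 h).2
      linarith
  have h1 : arg z⁻¹ = - arg z := by
    rw [Complex.arg_inv, if_neg a2.2.ne]
  rw [div_eq_mul_inv]
  have h2 := (Complex.arg_mul_eq_add_arg_iff hw0 (inv_ne_zero hz0)).2 (by
    rw [h1]; constructor <;> linarith [a1.1, a1.2, a2.1, a2.2])
  rw [h2, h1, sub_eq_add_neg]

/-- The main terms of the expansion of the argument of the flow. -/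
noncomputable def mainE (z : ℂ) (w t : ℝ) : ℝ :=
  (-(w : ℂ) / z + (2 * (t : ℂ) - (w : ℂ) ^ 2 / 2) / z ^ 2).im

/-- **Expansion of the argument of the Loewner flow.** -/
theorem arg_expansion {T R : ℝ} (hT : 0 ≤ T) (hR : 0 ≤ R) : ∃ C y₀ : ℝ, 0 ≤ C ∧ 0 < y₀ ∧
    ∀ (W : ℝ → ℝ) (z : ℂ) (t : ℝ), 0 ≤ t → t ≤ T → ContinuousOn W (Icc 0 t) →
      (∀ s ∈ Icc 0 t, |W s| ≤ R) → y₀ ≤ z.im →
      |arg (flow W t z) - arg z - mainE z (W t) t| ≤ C / z.im ^ 3 := by
  set C1 : ℝ := 4 * T * (4 * T + R) with hC1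
  set A : ℝ := R + 2 * T + C1 with hA
  have hC10 : 0 ≤ C1 := by positivity
  have hA0 : 0 ≤ A := by positivity
  refine ⟨C1 + A * (2 * T + C1) + A ^ 3, 1 + 8 * T + 2 * A, by positivity, by positivity, ?_⟩
  intro W z t ht htT hW hWR hy
  set y : ℝ := z.im with hydef
  have hy1 : 1 ≤ y := by linarith
  have hy0 : 0 < y := by linarith
  have hz0 : z ≠ 0 := by rintro rfl; simp at hydef; linarith
  have hzn : y ≤ ‖z‖ := (le_abs_self _).trans (Complex.abs_im_le_norm z)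
  have hzn0 : 0 < ‖z‖ := norm_pos_iff.2 hz0
  have h8 : 8 * t ≤ z.im ^ 2 := by
    rw [← hydef]
    nlinarith
  obtain ⟨g, hg, hb⟩ := exists_sol ht hW hy0 h8
  have hfl : flow W t z = g t - (W t : ℂ) := flow_eq ht hg
  have him : 0 < (flow W t z).im := by
    rw [hfl]
    have := (hg.2 t ⟨ht, le_rfl⟩).1
    simpa using this
  set e1 : ℂ := g t - z - 2 * t / z with he1
  have he1n : ‖e1‖ ≤ C1 / y ^ 2 := by
    have h1 := second_order ht hWR hy0 hg hb
    rw [← hydef] at h1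
    refine h1.trans ?_
    apply div_le_div_of_nonneg_right _ (by positivity)
    rw [hC1]
    have h2 : 4 * t / y ≤ 4 * T := by
      rw [div_le_iff₀ hy0]
      nlinarith
    have h3 : 0 ≤ 4 * t / y := by positivity
    exact mul_le_mul (by linarith) (by linarith) (by positivity) (by positivity)
  have hy2 : 1 ≤ y ^ 2 := one_le_pow₀ hy1
  set w : ℂ := (W t : ℂ) with hw
  have hwn : ‖w‖ ≤ R := by
    rw [hw, Complex.norm_real, Real.norm_eq_abs]; exact hWR t ⟨ht, le_rfl⟩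
  set u : ℂ := flow W t z / z - 1 with hu
  have hu1 : u = -w / z + 2 * t / z ^ 2 + e1 / z := by
    rw [hu, hfl, he1]
    field_simp
    ring
  have htn : ‖(2 * t / z ^ 2 : ℂ)‖ ≤ 2 * T / y ^ 2 := by
    rw [norm_div, norm_pow, norm_mul, Complex.norm_real, Real.norm_eq_abs, abs_of_nonneg ht]
    have h8 : ‖(2 : ℂ)‖ = 2 := by simp
    rw [h8]
    exact div_le_div₀ (by positivity) (by linarith) (by positivity)
      (pow_le_pow_left₀ hy0.le hzn 2)
  have hen : ‖e1 / z‖ ≤ C1 / y ^ 3 := by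
    rw [norm_div]
    calc ‖e1‖ / ‖z‖ ≤ (C1 / y ^ 2) / y := div_le_div₀ (by positivity) he1n hy0 hzn
      _ = C1 / y ^ 3 := by field_simp
  have hwz : ‖w / z‖ ≤ R / y := by
    rw [norm_div]
    exact div_le_div₀ hR hwn hy0 hzn
  have c1 : 2 * T / y ^ 2 ≤ 2 * T / y := by
    apply div_le_div_of_nonneg_left (by positivity) hy0
    nlinarith
  have c2 : C1 / y ^ 3 ≤ C1 / y ^ 2 := by
    apply div_le_div_of_nonneg_left hC10 (by positivity)
    nlinarith [pow_pos hy0 2]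
  have c3 : C1 / y ^ 2 ≤ C1 / y := by
    apply div_le_div_of_nonneg_left hC10 hy0
    nlinarith
  have hun : ‖u‖ ≤ A / y := by
    rw [hu1]
    refine (norm_add₃_le).trans ?_
    rw [neg_div, norm_neg]
    calc ‖w / z‖ + ‖(2 * t / z ^ 2 : ℂ)‖ + ‖e1 / z‖ ≤ R / y + 2 * T / y + C1 / y := by linarith
      _ = A / y := by rw [hA]; ring
  have hu12 : ‖u‖ ≤ 1 / 2 := by
    refine hun.trans ?_
    rw [div_le_iff₀ hy0]
    linarith
  have d1 : ‖u + w / z‖ ≤ (2 * T + C1) / y ^ 2 := by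
    have : u + w / z = 2 * t / z ^ 2 + e1 / z := by rw [hu1]; ring
    rw [this]
    refine (norm_add_le _ _).trans ?_
    rw [add_div]
    linarith
  have d2 : ‖u - w / z‖ ≤ 2 * A / y := by
    refine (norm_sub_le _ _).trans ?_
    have : R / y ≤ A / y := by
      apply div_le_div_of_nonneg_right _ hy0.le
      rw [hA]; linarith
    calc ‖u‖ + ‖w / z‖ ≤ A / y + A / y := by linarith
      _ = 2 * A / y := by ring
  have d3 : ‖u ^ 2 - w ^ 2 / z ^ 2‖ ≤ 2 * A * (2 * T + C1) / y ^ 3 := by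
    have : u ^ 2 - w ^ 2 / z ^ 2 = (u + w / z) * (u - w / z) := by
      rw [← div_pow]; ring
    rw [this, norm_mul]
    calc ‖u + w / z‖ * ‖u - w / z‖ ≤ ((2 * T + C1) / y ^ 2) * (2 * A / y) :=
          mul_le_mul d1 d2 (norm_nonneg _) (by positivity)
      _ = 2 * A * (2 * T + C1) / y ^ 3 := by field_simp
  have d4 := norm_log_sub_logTaylor_le 2 (z := u) (by linarith)
  have d5 : logTaylor (2 + 1) u = u - u ^ 2 / 2 := by
    simp only [logTaylor, Finset.sum_range_succ, Finset.sum_range_zero]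
    norm_num
    ring
  rw [d5] at d4
  have d6 : ‖log (1 + u) - (u - u ^ 2 / 2)‖ ≤ A ^ 3 / y ^ 3 := by
    refine d4.trans ?_
    have h1 : (1 - ‖u‖)⁻¹ ≤ 2 := by
      rw [inv_le_comm₀ (by linarith) (by norm_num)]
      linarith
    have h2 : ‖u‖ ^ 3 ≤ (A / y) ^ 3 := pow_le_pow_left₀ (norm_nonneg _) hun 3
    have h3 : 0 ≤ (A / y) ^ 3 := by positivity
    have h4 : ‖u‖ ^ (2 + 1) * (1 - ‖u‖)⁻¹ ≤ (A / y) ^ 3 * 2 :=
      mul_le_mul h2 h1 (inv_nonneg.2 (by linarith)) h3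
    have h5 : ((2 : ℕ) : ℝ) + 1 = 3 := by norm_num
    rw [h5]
    rw [← div_pow]
    calc ‖u‖ ^ (2 + 1) * (1 - ‖u‖)⁻¹ / 3 ≤ (A / y) ^ 3 * 2 / 3 := by linarith
      _ ≤ (A / y) ^ 3 := by linarith
  have e2 : arg (flow W t z) - arg z = (log (1 + u)).im := by
    rw [← arg_div_upper him hy0, log_im]
    congr 1
    rw [hu]; ring
  have e3 : mainE z (W t) t = (-w / z + (2 * t - w ^ 2 / 2) / z ^ 2).im := rfl
  rw [e2, e3, ← Complex.sub_im]
  refine (Complex.abs_im_le_norm _).trans ?_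
  have e4 : log (1 + u) - (-w / z + (2 * t - w ^ 2 / 2) / z ^ 2) =
      e1 / z + (-(1 / 2)) * (u ^ 2 - w ^ 2 / z ^ 2) + (log (1 + u) - (u - u ^ 2 / 2)) := by
    have : u = -w / z + 2 * t / z ^ 2 + e1 / z := hu1
    linear_combination this
  rw [e4]
  refine (norm_add₃_le).trans ?_
  have d7 : ‖-(1 / 2 : ℂ) * (u ^ 2 - w ^ 2 / z ^ 2)‖ ≤ A * (2 * T + C1) / y ^ 3 := by
    rw [norm_mul, norm_neg]
    have : ‖(1 / 2 : ℂ)‖ = 1 / 2 := by simp
    rw [this]
    calc 1 / 2 * ‖u ^ 2 - w ^ 2 / z ^ 2‖ ≤ 1 / 2 * (2 * A * (2 * T + C1) / y ^ 3) := by linarith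
      _ = A * (2 * T + C1) / y ^ 3 := by ring
  calc _ ≤ C1 / y ^ 3 + A * (2 * T + C1) / y ^ 3 + A ^ 3 / y ^ 3 := by linarith
    _ = (C1 + A * (2 * T + C1) + A ^ 3) / y ^ 3 := by ring

end Vale.Agent.P153.M1
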