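import Mathlib.Probability.BrownianMotion.Basic
import Mathlib.Probability.Independence.CharacteristicFunction
import Mathlib.Probability.Distributions.Gaussian.Real

/-!
# P153, block M1: a process with the characteristic functions of Brownian motion is a
(pre-)Brownian motion
-/

namespace Vale.Agent.P153.M1

open MeasureTheory ProbabilityTheory Filter Topology Set Complex
open scoped NNReal ENNReal

variable {Ω : Type*} [MeasurableSpace Ω] {P : Measure Ω} [IsProbabilityMeasure P]
  {X : ℝ≥0 → Ω → ℝ}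

/-- The characteristic functions of the increments are those of Brownian motion. -/
def CharB (X : ℝ≥0 → Ω → ℝ) (P : Measure Ω) : Prop :=
  ∀ (s : ℕ → ℝ≥0), Monotone s → ∀ (l : ℕ → ℝ) (m : ℕ),
    ∫ ω, cexp (((∑ j ∈ Finset.range m, l j * (X (s (j + 1)) ω - X (s j) ω) : ℝ) : ℂ) * I) ∂P =
      ((Real.exp (-(∑ j ∈ Finset.range m, l j ^ 2 / 2 * ((s (j + 1) : ℝ) - s j))) : ℝ) : ℂ)

omit [IsProbabilityMeasure P] in
theorem CharB.incr (h : CharB X P) {a b : ℝ≥0} (hab : a ≤ b) (u : ℝ) :
    ∫ ω, cexp (((u * (X b ω - X a ω) : ℝ) : ℂ) * I) ∂P =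
      ((Real.exp (-(u ^ 2 / 2 * ((b : ℝ) - a))) : ℝ) : ℂ) := by
  have h1 := h (fun k => if k = 0 then a else b) (by
    intro i j hij
    dsimp only
    split_ifs with h1 h2 h3
    · exact le_rfl
    · exact hab
    · omega
    · exact le_rfl) (fun _ => u) 1
  simpa using h1

theorem CharB.hasLaw (h : CharB X P) (hX : ∀ t, AEMeasurable (X t) P)
    (h0 : ∀ᵐ ω ∂P, X 0 ω = 0) (t : ℝ≥0) : HasLaw (X t) (gaussianReal 0 t) P := by
  refine ⟨hX t, ?_⟩
  refine Measure.ext_of_charFun ?_
  funext u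
  rw [charFun_gaussianReal, charFun_apply_real,
    integral_map (hX t) (by fun_prop)]
  have h1 := h.incr (zero_le (a := t)) u
  have h2 : ∫ ω, cexp ((u : ℂ) * (X t ω : ℂ) * I) ∂P =
      ∫ ω, cexp (((u * (X t ω - X 0 ω) : ℝ) : ℂ) * I) ∂P := by
    refine integral_congr_ae ?_
    filter_upwards [h0] with ω hω
    rw [hω]
    push_cast
    ring_nf
  rw [h2, h1]
  push_cast
  congr 1
  ring

theorem CharB.indep (h : CharB X P) (hX : ∀ t, AEMeasurable (X t) P) :
    HasIndepIncrements X P := by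
  intro n t ht
  have hm : ∀ i : Fin n, AEMeasurable (fun ω => X (t i.succ) ω - X (t i.castSucc) ω) P :=
    fun i => (hX _).sub (hX _)
  rw [iIndepFun_iff_charFun_pi hm]
  intro u
  have hlt : ∀ k, min n k < n + 1 := fun k => by omega
  set s : ℕ → ℝ≥0 := fun k => t ⟨min n k, hlt k⟩ with hs
  have hsm : Monotone s := fun a b hab => ht (by
    rw [Fin.mk_le_mk]
    exact min_le_min le_rfl hab)
  set l : ℕ → ℝ := fun k => if hk : k < n then u ⟨k, hk⟩ else 0 with hl
  have hs1 : ∀ i : Fin n, s (i.1 + 1) = t i.succ := by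
    intro i
    refine congrArg t (Fin.ext ?_)
    change min n (i.1 + 1) = i.1 + 1
    have := i.2
    omega
  have hs0 : ∀ i : Fin n, s i.1 = t i.castSucc := by
    intro i
    refine congrArg t (Fin.ext ?_)
    change min n i.1 = i.1
    have := i.2
    omega
  have hli : ∀ i : Fin n, l i.1 = u i := by
    intro i
    rw [hl]
    simp
  have key := h s hsm l n
  have e1 : charFun (P.map (fun ω ↦ WithLp.toLp 2 (fun i : Fin n =>
      X (t i.succ) ω - X (t i.castSucc) ω))) u =
      ∫ ω, cexp (((∑ j ∈ Finset.range n, l j * (X (s (j + 1)) ω - X (s j) ω) : ℝ) : ℂ) * I) ∂P := by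
    rw [charFun_apply, integral_map]
    · congr 1
      funext ω
      congr 2
      rw [Finset.sum_range, PiLp.inner_apply]
      congr 1
      refine Finset.sum_congr rfl fun i _ => ?_
      rw [hs1, hs0, hli]
      simp
    · exact (WithLp.measurable_toLp 2 _).comp_aemeasurable (aemeasurable_pi_lambda _ hm)
    · fun_prop
  rw [e1, key]
  have e2 : ∀ i : Fin n, charFun (P.map (fun ω => X (t i.succ) ω - X (t i.castSucc) ω)) (u i) =
      ((Real.exp (-(l i ^ 2 / 2 * ((s (i + 1) : ℝ) - s i))) : ℝ) : ℂ) := by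
    intro i
    rw [charFun_apply_real, integral_map (hm i) (by fun_prop), hs1, hs0, hli,
      ← h.incr (ht (Fin.castSucc_le_succ i)) (u i)]
    congr 1
    funext ω
    push_cast
    ring_nf
  rw [Finset.prod_congr rfl fun i _ => e2 i, ← Complex.ofReal_prod, ← Real.exp_sum,
    Finset.sum_range, ← Finset.sum_neg_distrib]

theorem CharB.isPreBrownianReal (h : CharB X P) (hX : ∀ t, AEMeasurable (X t) P)
    (h0 : ∀ᵐ ω ∂P, X 0 ω = 0) : IsPreBrownianReal X P :=
  HasIndepIncrements.isPreBrownianReal_of_hasLaw (h.hasLaw hX h0) (h.indep hX)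

end Vale.Agent.P153.M1
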