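import Vale.Agent.P153.R2.M1.Time
import Mathlib.Analysis.SpecialFunctions.Complex.Circle
import Mathlib.Analysis.Complex.Exponential

/-!
# P153, block M1: one-step characteristic function estimate
-/

set_option linter.unusedSectionVars false
set_option linter.unusedVariables false

namespace Vale.Agent.P153.M1

open MeasureTheory Filter Topology Set Complex

/-- Remainder of the second order expansion of `exp (i x)`. -/
noncomputable def rem (x : ℝ) : ℂ := cexp ((x : ℂ) * I) - (1 + (x : ℂ) * I - (x : ℂ) ^ 2 / 2)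

theorem rem_bound (x : ℝ) : ‖rem x‖ ≤ 4 * |x| ^ 3 ∧ ‖rem x‖ ≤ 4 * x ^ 2 := by
  have hx0 : ‖(x : ℂ) * I‖ = |x| := by simp
  rcases le_or_gt |x| 1 with hx | hx
  · have h1 := Complex.exp_bound (x := (x : ℂ) * I) (by rw [hx0]; exact hx) (n := 3) (by norm_num)
    have h2 : cexp ((x : ℂ) * I) - ∑ m ∈ Finset.range 3, ((x : ℂ) * I) ^ m / (m.factorial : ℂ) =
        rem x := by
      simp only [rem, Finset.sum_range_succ, Finset.sum_range_zero, Nat.factorial]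
      have hI : I ^ 2 = -1 := I_sq
      push_cast
      ring_nf
      rw [hI]
      ring
    rw [h2, hx0] at h1
    have h3 : ‖rem x‖ ≤ |x| ^ 3 := by
      refine h1.trans ?_
      have : ((Nat.succ 3 : ℕ) : ℝ) * ((Nat.factorial 3 : ℕ) * (3 : ℕ) : ℝ)⁻¹ ≤ 1 := by
        norm_num [Nat.factorial]
      calc |x| ^ 3 * (((Nat.succ 3 : ℕ) : ℝ) * ((Nat.factorial 3 : ℕ) * (3 : ℕ) : ℝ)⁻¹)
          ≤ |x| ^ 3 * 1 := mul_le_mul_of_nonneg_left this (by positivity)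
        _ = |x| ^ 3 := mul_one _
    have h4 : |x| ^ 3 ≤ x ^ 2 := by
      rw [← sq_abs x]
      exact pow_le_pow_of_le_one (abs_nonneg x) hx (by norm_num)
    have h5 : 0 ≤ |x| ^ 3 := by positivity
    constructor <;> nlinarith [sq_nonneg x]
  · have h1 : ‖rem x‖ ≤ 1 + (1 + |x| + x ^ 2 / 2) := by
      unfold rem
      refine (norm_sub_le _ _).trans (add_le_add (norm_exp_ofReal_mul_I x).le ?_)
      refine (norm_sub_le _ _).trans (add_le_add ((norm_add_le _ _).trans ?_) ?_)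
      · rw [hx0]; simp
      · simp
    have h2 : x ^ 2 = |x| ^ 2 := (sq_abs x).symm
    have h3 : |x| ≤ |x| ^ 2 := by nlinarith
    have h4 : ‖rem x‖ ≤ 4 * |x| ^ 2 := by rw [h2] at h1; nlinarith
    constructor
    · have : |x| ^ 2 ≤ |x| ^ 3 := by nlinarith
      linarith
    · rw [h2]; exact h4

namespace Sys

variable {Ω : ℕ → Type*} [mΩ : ∀ n, MeasurableSpace (Ω n)] {S : Sys Ω}
  {P : ∀ n, Measure (Ω n)} [∀ n, IsProbabilityMeasure (P n)] {U : Ultrafilter ℕ}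
  {κ κ' κ'' : ∀ n, Ω n → ℕ} {T R : ℝ}

theorem past_re {κ : ∀ n, Ω n → ℕ} (hκ : ∀ n, IsStop (S.F n) (κ n)) {Z : ∀ n, Ω n → ℂ}
    (hZ : ∀ n, Past (S.F n) (κ n) (Z n)) (n : ℕ) : Past (S.F n) (κ n) (fun ω => (Z n ω).re) :=
  (hZ n).comp (hκ n) Complex.measurable_re

theorem past_im {κ : ∀ n, Ω n → ℕ} (hκ : ∀ n, IsStop (S.F n) (κ n)) {Z : ∀ n, Ω n → ℂ}
    (hZ : ∀ n, Past (S.F n) (κ n) (Z n)) (n : ℕ) : Past (S.F n) (κ n) (fun ω => (Z n ω).im) :=
  (hZ n).comp (hκ n) Complex.measurable_im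

theorem lim1C (hS : S.Ok) (hM : S.AM P) (hU : (U : Filter ℕ) ≤ atTop)
    (hκ : ∀ n, IsStop (S.F n) (κ n)) (hκ' : S.St T R κ') (hle : ∀ n ω, κ n ω ≤ κ' n ω)
    {Z : ∀ n, Ω n → ℂ} (hZ : ∀ n, Past (S.F n) (κ n) (Z n)) (bZ : Bdd Z) :
    LE P U (fun n ω => ((S.Va κ' n ω - S.Va κ n ω : ℝ) : ℂ) * Z n ω) = 0 := by
  have hκs : S.St T R κ := hκ'.of_le hκ hle
  have bV := hS.bddV hκs
  have bV' := hS.bddV hκ'
  have b1 : Bdd (fun n ω => ((S.Va κ' n ω - S.Va κ n ω : ℝ) : ℂ) * Z n ω) :=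
    (bV'.sub bV).ofReal.mulC bZ
  rw [LE_re_im b1]
  have e1 : (fun n ω => (((S.Va κ' n ω - S.Va κ n ω : ℝ) : ℂ) * Z n ω).re) =
      fun n ω => (S.Va κ' n ω - S.Va κ n ω) * (Z n ω).re := by
    funext n ω; rw [Complex.re_ofReal_mul]
  have e2 : (fun n ω => (((S.Va κ' n ω - S.Va κ n ω : ℝ) : ℂ) * Z n ω).im) =
      fun n ω => (S.Va κ' n ω - S.Va κ n ω) * (Z n ω).im := by
    funext n ω; rw [Complex.im_ofReal_mul]
  rw [e1, e2, lim1 hS hM hU hκ hκ' hle (past_re hκ hZ) bZ.re.2,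
    lim1 hS hM hU hκ hκ' hle (past_im hκ hZ) bZ.im.2]
  simp

theorem limsqC (hS : S.Ok) (hM : S.AM P) (hU : (U : Filter ℕ) ≤ atTop)
    (hκ : ∀ n, IsStop (S.F n) (κ n)) (hκ' : S.St T R κ') (hle : ∀ n ω, κ n ω ≤ κ' n ω)
    {Z : ∀ n, Ω n → ℂ} (hZ : ∀ n, Past (S.F n) (κ n) (Z n)) (bZ : Bdd Z) :
    LE P U (fun n ω => (((S.Va κ' n ω - S.Va κ n ω) ^ 2 : ℝ) : ℂ) * Z n ω) =
      4 * LE P U (fun n ω => ((S.Ta κ' n ω - S.Ta κ n ω : ℝ) : ℂ) * Z n ω) := by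
  have hκs : S.St T R κ := hκ'.of_le hκ hle
  have bV := hS.bddV hκs
  have bV' := hS.bddV hκ'
  have bT := hS.bddT hκs
  have bT' := hS.bddT hκ'
  have bsq : Bdd (fun n ω => (S.Va κ' n ω - S.Va κ n ω) ^ 2) := by
    have := (bV'.sub bV).mul (bV'.sub bV)
    simpa only [sq] using this
  have b1 : Bdd (fun n ω => (((S.Va κ' n ω - S.Va κ n ω) ^ 2 : ℝ) : ℂ) * Z n ω) :=
    bsq.ofReal.mulC bZ
  have b2 : Bdd (fun n ω => ((S.Ta κ' n ω - S.Ta κ n ω : ℝ) : ℂ) * Z n ω) :=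
    (bT'.sub bT).ofReal.mulC bZ
  rw [LE_re_im b1, LE_re_im b2]
  have e1 : (fun n ω => ((((S.Va κ' n ω - S.Va κ n ω) ^ 2 : ℝ) : ℂ) * Z n ω).re) =
      fun n ω => (S.Va κ' n ω - S.Va κ n ω) ^ 2 * (Z n ω).re := by
    funext n ω; rw [Complex.re_ofReal_mul]
  have e2 : (fun n ω => ((((S.Va κ' n ω - S.Va κ n ω) ^ 2 : ℝ) : ℂ) * Z n ω).im) =
      fun n ω => (S.Va κ' n ω - S.Va κ n ω) ^ 2 * (Z n ω).im := by
    funext n ω; rw [Complex.im_ofReal_mul]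
  have e3 : (fun n ω => (((S.Ta κ' n ω - S.Ta κ n ω : ℝ) : ℂ) * Z n ω).re) =
      fun n ω => (S.Ta κ' n ω - S.Ta κ n ω) * (Z n ω).re := by
    funext n ω; rw [Complex.re_ofReal_mul]
  have e4 : (fun n ω => (((S.Ta κ' n ω - S.Ta κ n ω : ℝ) : ℂ) * Z n ω).im) =
      fun n ω => (S.Ta κ' n ω - S.Ta κ n ω) * (Z n ω).im := by
    funext n ω; rw [Complex.im_ofReal_mul]
  rw [e1, e2, e3, e4, limsq hS hM hU hκ hκ' hle (past_re hκ hZ) bZ.re.2,
    limsq hS hM hU hκ hκ' hle (past_im hκ hZ) bZ.im.2]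
  push_cast
  ring

/-- One step of the characteristic function. -/
theorem step_char (hS : S.Ok) (hM : S.AM P) (hU : (U : Filter ℕ) ≤ atTop) {s t : ℝ}
    (hs : 0 ≤ s) (hst : s ≤ t) (htT : t ≤ T) {Z : ∀ n, Ω n → ℂ}
    (hZ : ∀ n, Past (S.F n) (sx hS T R s n) (Z n)) (hZ1 : ∀ n ω, ‖Z n ω‖ ≤ 1) (l : ℝ) {ε D : ℝ}
    (hε : 0 < ε) (hD : ∀ n ω, |S.Va (sx hS T R t) n ω - S.Va (sx hS T R s) n ω| ≤ D) :
    ‖LE P U (fun n ω => cexp (((l * (S.Va (sx hS T R t) n ω - S.Va (sx hS T R s) n ω) : ℝ) : ℂ)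
        * I) * Z n ω) - (1 - 2 * l ^ 2 * (t - s) : ℝ) * LE P U Z‖ ≤
      2 * l ^ 2 * (t - s) * LE P U (outR hS T R) +
        4 * (|l| ^ 3 * (4 * ε) * (4 * (t - s)) + l ^ 2 * D ^ 2 * (4 * (t - s) / ε ^ 2) ^ 2) := by
  obtain ⟨e, he0, he, h1, h2, -⟩ := time_est hS T R
  set κ := sx hS T R s with hκdef
  set κ' := sx hS T R t with hκ'def
  have hκ : ∀ n, IsStop (S.F n) (κ n) := sx_stop hS T R s
  have hκ' : S.St T R κ' := sx_St hS T R t
  have hle : ∀ n ω, κ n ω ≤ κ' n ω := sx_mono hS hst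
  have hκs : S.St T R κ := hκ'.of_le hκ hle
  have bV := hS.bddV hκs
  have bV' := hS.bddV hκ'
  have bT := hS.bddT hκs
  have bT' := hS.bddT hκ'
  have bZ : Bdd Z := ⟨fun n => (hZ n).measurable (hκ n), 1, hZ1⟩
  have heU : Tendsto e U (𝓝 0) := he.mono_left hU
  set Δ : ∀ n, Ω n → ℝ := fun n ω => S.Va κ' n ω - S.Va κ n ω with hΔ
  have bΔ : Bdd Δ := bV'.sub bV
  have bsq : Bdd (fun n ω => Δ n ω ^ 2) := by
    have := bΔ.mul bΔ
    simpa only [sq] using this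
  have hT : ∀ n ω, S.Ta κ' n ω - S.Ta κ n ω ≤ (t - s) + (e n + (t - s) * 0) + 0 := by
    intro n ω
    have h3 := h2 n ω s t hs hst htT
    by_cases h4 : outR hS T R n ω = 1
    · rw [h4] at h3
      -- crude bound in the exit case
      have h5 := h1 n ω t (hs.trans hst)
      have h6 : sx hS T R s n ω = sx hS T R t n ω ∨ s ≤ S.Ta κ n ω := by
        rcases le_total (tix hS s n ω) (ex hS T R n ω) with h7 | h7
        · right
          have : sx hS T R s n ω = tix hS s n ω := min_eq_left h7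
          change s ≤ S.τ n (sx hS T R s n ω) ω
          rw [this]
          exact Ta_tix_ge hS n ω
        · left
          have h8 : sx hS T R s n ω = ex hS T R n ω := min_eq_right h7
          have h9 : sx hS T R t n ω = ex hS T R n ω :=
            min_eq_right (h7.trans (tix_mono hS hst n ω))
          rw [h8, h9]
      have h7 := he0 n
      rcases h6 with h6 | h6
      · have : S.Ta κ' n ω = S.Ta κ n ω := by
          change S.τ n (sx hS T R t n ω) ω = S.τ n (sx hS T R s n ω) ω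
          rw [h6]
        rw [this]
        linarith
      · linarith
    · have h5 : outR hS T R n ω = 0 := by
        unfold outR at h4 ⊢
        split_ifs with h5
        · rw [if_pos h5] at h4; exact absurd rfl h4
        · rfl
      rw [h5, mul_zero, add_zero] at h3
      have := (abs_le.1 h3).2
      linarith
  have hT' : ∀ n ω, S.Ta κ' n ω - S.Ta κ n ω ≤ (t - s) + e n := fun n ω => by
    have := hT n ω
    linarith
  have hts : 0 ≤ t - s := sub_nonneg.2 hst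
  obtain ⟨X, bX, X01, hX, hX2⟩ := tail2 (U := U) (P := P) hS hM hU hκ hκ' hle hts heU hT' hε
  have hA0 : 0 ≤ LE P U (outR hS T R) := LE_nonneg (outR_bdd hS T R) (outR_nonneg hS T R)
  -- the remainder
  set r : ∀ n, Ω n → ℂ := fun n ω => rem (l * Δ n ω) with hr
  have br : Bdd r := by
    obtain ⟨C, hC0, hC⟩ := bΔ.pos
    refine ⟨fun n => ?_, 4 * (|l| * C) ^ 2, fun n ω => ?_⟩
    · have hm := bΔ.1 n
      simp only [hr, rem]
      fun_prop
    · refine (rem_bound _).2.trans ?_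
      rw [← sq_abs, abs_mul]
      have := hC n ω
      rw [Real.norm_eq_abs] at this
      gcongr
  have brZ : Bdd (fun n ω => r n ω * Z n ω) := br.mulC bZ
  have e1 := lim1C (U := U) hS hM hU hκ hκ' hle hZ bZ
  have e2 := limsqC (U := U) hS hM hU hκ hκ' hle hZ bZ
  have b1 : Bdd (fun n ω => ((Δ n ω : ℝ) : ℂ) * Z n ω) := bΔ.ofReal.mulC bZ
  have b2 : Bdd (fun n ω => ((Δ n ω ^ 2 : ℝ) : ℂ) * Z n ω) := bsq.ofReal.mulC bZ
  have b3 : Bdd (fun n ω => ((S.Ta κ' n ω - S.Ta κ n ω : ℝ) : ℂ) * Z n ω) :=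
    (bT'.sub bT).ofReal.mulC bZ
  have b4 : Bdd (fun n ω => ((S.Ta κ' n ω - S.Ta κ n ω - (t - s) : ℝ) : ℂ) * Z n ω) :=
    ((bT'.sub bT).sub (Bdd.const _)).ofReal.mulC bZ
  have e3 : LE P U (fun n ω => cexp (((l * Δ n ω : ℝ) : ℂ) * I) * Z n ω) =
      LE P U Z + ((l : ℂ) * I) * LE P U (fun n ω => ((Δ n ω : ℝ) : ℂ) * Z n ω) +
      (-((l : ℂ) ^ 2 / 2)) * LE P U (fun n ω => ((Δ n ω ^ 2 : ℝ) : ℂ) * Z n ω) +
      LE P U (fun n ω => r n ω * Z n ω) := by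
    rw [← LE_const_mulC _ b1, ← LE_const_mulC _ b2, ← LE_add bZ (b1.const_mulC _),
      ← LE_add (bZ.add (b1.const_mulC _)) (b2.const_mulC _),
      ← LE_add ((bZ.add (b1.const_mulC _)).add (b2.const_mulC _)) brZ]
    congr 1
    funext n ω
    simp only [hr, rem]
    push_cast
    ring
  have e4 : LE P U (fun n ω => ((S.Ta κ' n ω - S.Ta κ n ω : ℝ) : ℂ) * Z n ω) =
      ((t - s : ℝ) : ℂ) * LE P U Z +
      LE P U (fun n ω => ((S.Ta κ' n ω - S.Ta κ n ω - (t - s) : ℝ) : ℂ) * Z n ω) := by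
    rw [← LE_const_mulC _ bZ, ← LE_add (bZ.const_mulC _) b4]
    congr 1
    funext n ω
    push_cast
    ring
  have e1' : LE P U (fun n ω => ((Δ n ω : ℝ) : ℂ) * Z n ω) = 0 := e1
  have e2' : LE P U (fun n ω => ((Δ n ω ^ 2 : ℝ) : ℂ) * Z n ω) =
    4 * LE P U (fun n ω => ((S.Ta κ' n ω - S.Ta κ n ω : ℝ) : ℂ) * Z n ω) := e2
  have e5 : LE P U (fun n ω => cexp (((l * Δ n ω : ℝ) : ℂ) * I) * Z n ω) -
      (1 - 2 * l ^ 2 * (t - s) : ℝ) * LE P U Z =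
      (-(2 * (l : ℂ) ^ 2)) *
        LE P U (fun n ω => ((S.Ta κ' n ω - S.Ta κ n ω - (t - s) : ℝ) : ℂ) * Z n ω) +
      LE P U (fun n ω => r n ω * Z n ω) := by
    rw [e3, e1', e2', e4]
    push_cast
    ring
  have n1 : ‖LE P U (fun n ω => ((S.Ta κ' n ω - S.Ta κ n ω - (t - s) : ℝ) : ℂ) * Z n ω)‖ ≤
      (t - s) * LE P U (outR hS T R) := by
    refine (norm_LE_le b4).trans ?_
    rw [← LE_const_mul _ (outR_bdd hS T R)]
    refine LE_mono_small b4.norm ((outR_bdd hS T R).const_mul _) heU fun n ω => ?_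
    rw [norm_mul, Complex.norm_real, Real.norm_eq_abs]
    have h3 := h2 n ω s t hs hst htT
    have h4 := hZ1 n ω
    have h5 := norm_nonneg (Z n ω)
    have h6 := abs_nonneg (S.Ta κ' n ω - S.Ta κ n ω - (t - s))
    calc |S.Ta κ' n ω - S.Ta κ n ω - (t - s)| * ‖Z n ω‖
        ≤ |S.Ta κ' n ω - S.Ta κ n ω - (t - s)| * 1 := mul_le_mul_of_nonneg_left h4 h6
      _ ≤ (t - s) * outR hS T R n ω + e n := by rw [mul_one]; linarith
  have n2 : LE P U (fun n ω => Δ n ω ^ 2) ≤ 4 * (t - s) := by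
    have h3 := limsq (U := U) hS hM hU hκ hκ' hle (Y := fun n _ => 1)
      (fun n => Past.const (hκ n) 1) ⟨1, fun n ω => by simp⟩
    simp only [mul_one] at h3
    have h3' : LE P U (fun n ω => Δ n ω ^ 2) =
      4 * LE P U (fun n ω => S.Ta κ' n ω - S.Ta κ n ω) := h3
    rw [h3']
    have h4 : LE P U (fun n ω => S.Ta κ' n ω - S.Ta κ n ω) ≤ t - s := by
      have h5 := LE_mono_small (P := P) (U := U) (bT'.sub bT) (Bdd.const (t - s)) heU hT'
      rwa [LE_const] at h5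
    linarith
  have n3 : ‖LE P U (fun n ω => r n ω * Z n ω)‖ ≤
      4 * (|l| ^ 3 * (4 * ε) * (4 * (t - s)) + l ^ 2 * D ^ 2 * (4 * (t - s) / ε ^ 2) ^ 2) := by
    refine (norm_LE_le brZ).trans ?_
    have h3 : LE P U (fun n ω => ‖r n ω * Z n ω‖) ≤ LE P U (fun n ω =>
        (4 * (|l| ^ 3 * (4 * ε))) * Δ n ω ^ 2 + (4 * (l ^ 2 * D ^ 2)) * X n ω) := by
      refine LE_mono_ev brZ.norm ((bsq.const_mul _).add (bX.const_mul _)) ?_
      filter_upwards [hU hX] with n hn ω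
      rw [norm_mul]
      have h4 : ‖r n ω‖ * ‖Z n ω‖ ≤ ‖r n ω‖ := mul_le_of_le_one_right (norm_nonneg _) (hZ1 n ω)
      refine h4.trans ?_
      have hD' := hD n ω
      have hD0 : 0 ≤ D := (abs_nonneg _).trans hD'
      rcases le_or_gt |Δ n ω| (4 * ε) with h5 | h5
      · have h6 := (rem_bound (l * Δ n ω)).1
        have h7 : |l * Δ n ω| ^ 3 ≤ |l| ^ 3 * (4 * ε) * Δ n ω ^ 2 := by
          rw [abs_mul, mul_pow, ← sq_abs (Δ n ω)]
          calc |l| ^ 3 * |Δ n ω| ^ 3 = |l| ^ 3 * (|Δ n ω| * |Δ n ω| ^ 2) := by ring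
            _ ≤ |l| ^ 3 * ((4 * ε) * |Δ n ω| ^ 2) := by gcongr
            _ = |l| ^ 3 * (4 * ε) * |Δ n ω| ^ 2 := by ring
        have h8 : 0 ≤ 4 * (l ^ 2 * D ^ 2) * X n ω :=
          mul_nonneg (by positivity) (X01 n ω).1
        calc ‖r n ω‖ ≤ 4 * |l * Δ n ω| ^ 3 := h6
          _ ≤ 4 * (|l| ^ 3 * (4 * ε) * Δ n ω ^ 2) := by linarith
          _ ≤ _ := by linarith
      · have h6 := (rem_bound (l * Δ n ω)).2
        have h7 : X n ω = 1 := hn ω ⟨κ' n ω, hle n ω, le_rfl, h5.le⟩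
        have h8 : (l * Δ n ω) ^ 2 ≤ l ^ 2 * D ^ 2 := by
          rw [mul_pow]
          refine mul_le_mul_of_nonneg_left ?_ (sq_nonneg l)
          rw [← sq_abs (Δ n ω)]
          exact pow_le_pow_left₀ (abs_nonneg _) hD' 2
        have h9 : 0 ≤ 4 * (|l| ^ 3 * (4 * ε)) * Δ n ω ^ 2 := by positivity
        rw [h7]
        calc ‖r n ω‖ ≤ 4 * (l * Δ n ω) ^ 2 := h6
          _ ≤ 4 * (l ^ 2 * D ^ 2) := by linarith
          _ ≤ _ := by linarith
    refine h3.trans ?_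
    rw [LE_add (bsq.const_mul _) (bX.const_mul _), LE_const_mul _ bsq, LE_const_mul _ bX]
    have h4 : 4 * (|l| ^ 3 * (4 * ε)) * LE P U (fun n ω => Δ n ω ^ 2) ≤
        4 * (|l| ^ 3 * (4 * ε)) * (4 * (t - s)) :=
      mul_le_mul_of_nonneg_left n2 (by positivity)
    have h5 : 4 * (l ^ 2 * D ^ 2) * LE P U X ≤ 4 * (l ^ 2 * D ^ 2) * (4 * (t - s) / ε ^ 2) ^ 2 :=
      mul_le_mul_of_nonneg_left hX2 (by positivity)
    linarith
  rw [e5]
  refine (norm_add_le _ _).trans (add_le_add ?_ n3)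
  rw [norm_mul, norm_neg, norm_mul, norm_pow, Complex.norm_real, Real.norm_eq_abs, sq_abs]
  have h3 : ‖(2 : ℂ)‖ = 2 := by simp
  rw [h3, mul_assoc (2 * l ^ 2) (t - s)]
  exact mul_le_mul_of_nonneg_left n1 (by positivity)

end Sys

end Vale.Agent.P153.M1
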