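import Vale.Agent.P153.R2.M1.Char
import Mathlib.Analysis.SpecialFunctions.Exponential
import Mathlib.Analysis.SpecialFunctions.Complex.LogBounds

/-!
# P153, block M1: characteristic functions of increments
-/

set_option linter.unusedSectionVars false
set_option linter.unusedVariables false

namespace Vale.Agent.P153.M1

open MeasureTheory Filter Topology Set Complex

namespace Sys

variable {Ω : ℕ → Type*} [mΩ : ∀ n, MeasurableSpace (Ω n)] {S : Sys Ω}
  {P : ∀ n, Measure (Ω n)} [∀ n, IsProbabilityMeasure (P n)] {U : Ultrafilter ℕ}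
  {κ κ' κ'' : ∀ n, Ω n → ℕ} {T R : ℝ}

theorem norm_cexp_real (x : ℝ) : ‖cexp ((x : ℂ) * I)‖ = 1 := norm_exp_ofReal_mul_I x

theorem cexp_mul_past {κ : ∀ n, Ω n → ℕ} (hκ : ∀ n, IsStop (S.F n) (κ n))
    {Y : ∀ n, Ω n → ℝ} (hY : ∀ n, Past (S.F n) (κ n) (Y n)) {Z : ∀ n, Ω n → ℂ}
    (hZ : ∀ n, Past (S.F n) (κ n) (Z n)) (n : ℕ) :
    Past (S.F n) (κ n) (fun ω => cexp (((Y n ω : ℝ) : ℂ) * I) * Z n ω) :=
  (hY n).comp₂ (hZ n) (hκ n) (f := fun a b => cexp ((a : ℂ) * I) * b) (by fun_prop)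

/-- Characteristic function of one increment, up to the exit probability. -/
theorem incr_char (hS : S.Ok) (hM : S.AM P) (hU : (U : Filter ℕ) ≤ atTop) {s t : ℝ}
    (hs : 0 ≤ s) (hst : s ≤ t) (htT : t ≤ T) {Z : ∀ n, Ω n → ℂ}
    (hZ : ∀ n, Past (S.F n) (sx hS T R s n) (Z n)) (hZ1 : ∀ n ω, ‖Z n ω‖ ≤ 1) (l : ℝ) :
    ‖LE P U (fun n ω => cexp (((l * (S.Va (sx hS T R t) n ω - S.Va (sx hS T R s) n ω) : ℝ) : ℂ)
        * I) * Z n ω) - (Real.exp (-(2 * l ^ 2 * (t - s))) : ℝ) * LE P U Z‖ ≤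
      2 * l ^ 2 * (t - s) * LE P U (outR hS T R) := by
  obtain ⟨C, hC0, hC⟩ := hS.val_bd T R
  have hts : 0 ≤ t - s := sub_nonneg.2 hst
  have hD : ∀ s t : ℝ, ∀ n ω, |S.Va (sx hS T R t) n ω - S.Va (sx hS T R s) n ω| ≤ 2 * C := by
    intro s t n ω
    have h1 := (hC n ω _ ((sx_St hS T R s).bef n ω)).1
    have h2 := (hC n ω _ ((sx_St hS T R t).bef n ω)).1
    exact (abs_sub _ _).trans (by change |S.V n _ ω| + |S.V n _ ω| ≤ _; linarith)
  have bZ : Bdd Z := ⟨fun n => (hZ n).measurable (sx_stop hS T R s n), 1, hZ1⟩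
  have hpA : 0 ≤ LE P U (outR hS T R) := LE_nonneg (outR_bdd hS T R) (outR_nonneg hS T R)
  have hLZ : ‖LE P U Z‖ ≤ 1 := (norm_LE_le bZ).trans (LE_le_const bZ.norm hZ1)
  -- the estimate for the partition into `N` pieces
  have main : ∀ (N : ℕ), 0 < N → 2 * l ^ 2 * ((t - s) / N) ≤ 2 → ∀ ε : ℝ, 0 < ε →
      ‖LE P U (fun n ω => cexp (((l * (S.Va (sx hS T R t) n ω -
        S.Va (sx hS T R s) n ω) : ℝ) : ℂ) * I) * Z n ω) -
        (((1 + -(2 * l ^ 2 * (t - s)) / N) ^ N : ℝ) : ℂ) * LE P U Z‖ ≤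
      2 * l ^ 2 * (t - s) * LE P U (outR hS T R) +
        (4 * (|l| ^ 3 * (4 * ε) * (4 * (t - s))) +
          4 * l ^ 2 * (2 * C) ^ 2 * (4 * (t - s) / ε ^ 2) ^ 2 * (1 / N)) := by
    intro N hN hNl ε hε
    have hN' : (0 : ℝ) < N := Nat.cast_pos.2 hN
    set h : ℝ := (t - s) / N with hh
    have hh0 : 0 ≤ h := div_nonneg hts hN'.le
    set q : ℝ := 1 - 2 * l ^ 2 * h with hq
    have hq1 : |q| ≤ 1 := by
      have : 0 ≤ 2 * l ^ 2 * h := by positivity
      rw [abs_le]; constructor <;> linarith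
    set E : ℝ := 2 * l ^ 2 * h * LE P U (outR hS T R) +
        4 * (|l| ^ 3 * (4 * ε) * (4 * h) + l ^ 2 * (2 * C) ^ 2 * (4 * h / ε ^ 2) ^ 2) with hE
    have hE0 : 0 ≤ E := by positivity
    set a : ℕ → ℂ := fun j => LE P U (fun n ω => cexp (((l * (S.Va (sx hS T R (s + j * h)) n ω -
        S.Va (sx hS T R s) n ω) : ℝ) : ℂ) * I) * Z n ω) with ha
    have hrec : ∀ j : ℕ, j < N → ‖a (j + 1) - (q : ℝ) * a j‖ ≤ E := by
      intro j hj
      have hj' : (j : ℝ) + 1 ≤ N := by exact_mod_cast hj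
      have hNh : N * h = t - s := by rw [hh]; field_simp
      have hjh : 0 ≤ (j : ℝ) * h := by positivity
      have h1 : 0 ≤ s + j * h := by linarith
      have h2 : s + j * h ≤ s + ((j + 1 : ℕ) : ℝ) * h := by push_cast; nlinarith
      have h3 : s + ((j + 1 : ℕ) : ℝ) * h ≤ T := by
        push_cast
        have : ((j : ℝ) + 1) * h ≤ N * h := mul_le_mul_of_nonneg_right hj' hh0
        linarith
      have hsj : ∀ n ω, sx hS T R s n ω ≤ sx hS T R (s + j * h) n ω :=
        sx_mono hS (by linarith)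
      have pZ : ∀ n, Past (S.F n) (sx hS T R (s + j * h) n) (Z n) := fun n =>
        (hZ n).mono (sx_stop hS T R s n) (sx_stop hS T R _ n) (hsj n)
      have pY : ∀ n, Past (S.F n) (sx hS T R (s + j * h) n)
          (fun ω => l * (S.Va (sx hS T R (s + j * h)) n ω - S.Va (sx hS T R s) n ω)) := fun n =>
        (hS.pastV (sx_stop hS T R _) n).comp₂ ((hS.pastV (sx_stop hS T R s) n).mono
          (sx_stop hS T R s n) (sx_stop hS T R _ n) (hsj n)) (sx_stop hS T R _ n)
          (f := fun a b => l * (a - b)) (by fun_prop)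
      have hs1 := step_char (U := U) (P := P) (T := T) (R := R) hS hM hU h1 h2 h3
        (Z := fun n ω => cexp (((l * (S.Va (sx hS T R (s + j * h)) n ω -
        S.Va (sx hS T R s) n ω) : ℝ) : ℂ) * I) * Z n ω)
        (cexp_mul_past (sx_stop hS T R _) pY pZ) (fun n ω => by
          rw [norm_mul, norm_cexp_real, one_mul]; exact hZ1 n ω) l hε (hD _ _)
      have e1 : s + ((j + 1 : ℕ) : ℝ) * h - (s + j * h) = h := by push_cast; ring
      rw [e1] at hs1
      have e2 : a (j + 1) = LE P U (fun n ω => cexp (((l * (S.Va (sx hS T R (s +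
          ((j + 1 : ℕ) : ℝ) * h)) n ω - S.Va (sx hS T R (s + j * h)) n ω) : ℝ) : ℂ) * I) *
          (cexp (((l * (S.Va (sx hS T R (s + j * h)) n ω -
        S.Va (sx hS T R s) n ω) : ℝ) : ℂ) * I) * Z n ω)) := by
        simp only [ha]
        congr 1
        funext n ω
        rw [← mul_assoc, ← Complex.exp_add]
        congr 2
        push_cast
        ring
      rw [e2]
      exact hs1
    have ha0 : a 0 = LE P U Z := by
      simp only [ha]
      congr 1
      funext n ω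
      simp
    have hind : ∀ j : ℕ, j ≤ N → ‖a j - ((q ^ j : ℝ) : ℂ) * a 0‖ ≤ j * E := by
      intro j
      induction j with
      | zero => intro _; simp
      | succ j ih =>
        intro hj
        have h1 := ih (by omega)
        have h2 := hrec j (by omega)
        have h3 : a (j + 1) - ((q ^ (j + 1) : ℝ) : ℂ) * a 0 =
            (a (j + 1) - (q : ℝ) * a j) + (q : ℂ) * (a j - ((q ^ j : ℝ) : ℂ) * a 0) := by
          push_cast; ring
        rw [h3]
        refine (norm_add_le _ _).trans ?_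
        rw [norm_mul, Complex.norm_real, Real.norm_eq_abs]
        have h4 : |q| * ‖a j - ((q ^ j : ℝ) : ℂ) * a 0‖ ≤ 1 * (j * E) :=
          mul_le_mul hq1 h1 (norm_nonneg _) zero_le_one
        rw [Nat.cast_succ, add_mul]
        linarith
    have h1 := hind N le_rfl
    have e1 : s + (N : ℝ) * h = t := by rw [hh]; field_simp; ring
    have e2 : a N = LE P U (fun n ω => cexp (((l * (S.Va (sx hS T R t) n ω -
        S.Va (sx hS T R s) n ω) : ℝ) : ℂ) * I) * Z n ω) := by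
      simp only [ha, e1]
    have e3 : q = 1 + -(2 * l ^ 2 * (t - s)) / N := by rw [hq, hh]; ring
    rw [e2, ha0, e3] at h1
    refine h1.trans (le_of_eq ?_)
    rw [hE, hh]
    field_simp
  -- the limit `N → ∞`
  have lim : ∀ ε : ℝ, 0 < ε →
      ‖LE P U (fun n ω => cexp (((l * (S.Va (sx hS T R t) n ω -
        S.Va (sx hS T R s) n ω) : ℝ) : ℂ) * I) * Z n ω) -
        (Real.exp (-(2 * l ^ 2 * (t - s))) : ℝ) * LE P U Z‖ ≤
      2 * l ^ 2 * (t - s) * LE P U (outR hS T R) +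
        4 * (|l| ^ 3 * (4 * ε) * (4 * (t - s))) := by
    intro ε hε
    have t1 : Tendsto (fun N : ℕ => ‖LE P U (fun n ω => cexp (((l * (S.Va (sx hS T R t) n ω -
        S.Va (sx hS T R s) n ω) : ℝ) : ℂ) * I) * Z n ω) -
        (((1 + -(2 * l ^ 2 * (t - s)) / N) ^ N : ℝ) : ℂ) * LE P U Z‖) atTop
        (𝓝 ‖LE P U (fun n ω => cexp (((l * (S.Va (sx hS T R t) n ω -
        S.Va (sx hS T R s) n ω) : ℝ) : ℂ) * I) * Z n ω) -
        (Real.exp (-(2 * l ^ 2 * (t - s))) : ℝ) * LE P U Z‖) := by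
      have h1 := Real.tendsto_one_add_div_pow_exp (-(2 * l ^ 2 * (t - s)))
      have h2 := (Complex.continuous_ofReal.tendsto _).comp h1
      exact (tendsto_const_nhds.sub (h2.mul_const _)).norm
    have t2 : Tendsto (fun N : ℕ => 2 * l ^ 2 * (t - s) * LE P U (outR hS T R) +
        (4 * (|l| ^ 3 * (4 * ε) * (4 * (t - s))) +
          4 * l ^ 2 * (2 * C) ^ 2 * (4 * (t - s) / ε ^ 2) ^ 2 * (1 / (N : ℝ)))) atTop
        (𝓝 (2 * l ^ 2 * (t - s) * LE P U (outR hS T R) +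
        (4 * (|l| ^ 3 * (4 * ε) * (4 * (t - s))) +
          4 * l ^ 2 * (2 * C) ^ 2 * (4 * (t - s) / ε ^ 2) ^ 2 * 0))) :=
      (((tendsto_one_div_atTop_nhds_zero_nat).const_mul _).const_add _).const_add _
    rw [mul_zero, add_zero] at t2
    refine le_of_tendsto_of_tendsto t1 t2 ?_
    have h3 : ∀ᶠ N : ℕ in atTop, 2 * l ^ 2 * ((t - s) / N) ≤ 2 := by
      have h4 : Tendsto (fun N : ℕ => 2 * l ^ 2 * ((t - s) * (1 / (N : ℝ)))) atTop
          (𝓝 (2 * l ^ 2 * ((t - s) * 0))) :=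
        ((tendsto_one_div_atTop_nhds_zero_nat).const_mul _).const_mul _
      rw [mul_zero, mul_zero] at h4
      filter_upwards [h4.eventually (gt_mem_nhds (show (0 : ℝ) < 2 by norm_num))] with N hN
      have : (t - s) / (N : ℝ) = (t - s) * (1 / (N : ℝ)) := by ring
      rw [this]
      exact hN.le
    filter_upwards [h3, eventually_gt_atTop 0] with N hN1 hN2
    exact main N hN2 hN1 ε hε
  refine le_of_forall_pos_le_add fun δ hδ => ?_
  set K : ℝ := 4 * (|l| ^ 3 * 4 * (4 * (t - s))) with hK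
  have hK0 : 0 ≤ K := by positivity
  have h1 := lim (δ / (K + 1)) (by positivity)
  have h2 : 4 * (|l| ^ 3 * (4 * (δ / (K + 1))) * (4 * (t - s))) = K / (K + 1) * δ := by
    rw [hK]; field_simp
  have h3 : K / (K + 1) * δ ≤ δ := by
    have : K / (K + 1) ≤ 1 := by rw [div_le_one (by positivity)]; linarith
    nlinarith
  linarith

end Sys

end Vale.Agent.P153.M1
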