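import Mathlib.MeasureTheory.Integral.Bochner.Basic
import Mathlib.MeasureTheory.Integral.Bochner.Set
import Mathlib.MeasureTheory.Integral.Bochner.ContinuousLinearMap
import Mathlib.Topology.MetricSpace.Sequences
import Mathlib.Topology.MetricSpace.ProperSpace
import Mathlib.Tactic

/-!
# P153, block M1: limit expectation along an ultrafilter

For a sequence of probability spaces and a bounded sequence of random variables `X n`, the limit
of the expectations along an ultrafilter.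
-/

set_option linter.unusedSectionVars false
set_option linter.unusedVariables false

namespace Vale.Agent.P153.M1

open MeasureTheory Filter Topology Set

section

variable {Ω : ℕ → Type*} [∀ n, MeasurableSpace (Ω n)]
variable {E : Type*} [NormedAddCommGroup E] [NormedSpace ℝ E] [MeasurableSpace E]

/-- Bounded sequences of measurable functions. -/
def Bdd (X : ∀ n, Ω n → E) : Prop := (∀ n, Measurable (X n)) ∧ ∃ C, ∀ n ω, ‖X n ω‖ ≤ C

theorem Bdd.pos {X : ∀ n, Ω n → E} (h : Bdd X) : ∃ C, 0 < C ∧ ∀ n ω, ‖X n ω‖ ≤ C := by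
  obtain ⟨C, hC⟩ := h.2
  exact ⟨max C 1, by positivity, fun n ω => (hC n ω).trans (le_max_left _ _)⟩

variable (P : ∀ n, Measure (Ω n))

/-- The limit of the expectations along `U`. -/
noncomputable def LE (U : Ultrafilter ℕ) (X : ∀ n, Ω n → E) : E :=
  limUnder (U : Filter ℕ) (fun n => ∫ ω, X n ω ∂(P n))

variable [BorelSpace E] [ProperSpace E] [∀ n, IsProbabilityMeasure (P n)] {P}
variable {U : Ultrafilter ℕ} {X Y : ∀ n, Ω n → E}

omit [∀ n, IsProbabilityMeasure (P n)] in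
theorem Bdd.integrable [∀ n, IsFiniteMeasure (P n)] (hX : Bdd X) (n : ℕ) :
    Integrable (X n) (P n) := by
  obtain ⟨C, hC⟩ := hX.2
  exact Integrable.of_bound (hX.1 n).aestronglyMeasurable C (Eventually.of_forall (hC n))

theorem Bdd.norm_int_le {C : ℝ} (hX : ∀ n ω, ‖X n ω‖ ≤ C) (n : ℕ) : ‖∫ ω, X n ω ∂(P n)‖ ≤ C := by
  have := norm_integral_le_of_norm_le_const (μ := P n) (f := X n) (C := C)
    (Eventually.of_forall (hX n))
  simpa using this

theorem tendsto_LE (hX : Bdd X) :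
    Tendsto (fun n => ∫ ω, X n ω ∂(P n)) U (𝓝 (LE P U X)) := by
  obtain ⟨C, hC⟩ := hX.2
  have hk : IsCompact (Metric.closedBall (0 : E) C) := isCompact_closedBall _ _
  have hm : ∀ n, (∫ ω, X n ω ∂(P n)) ∈ Metric.closedBall (0 : E) C := fun n => by
    rw [mem_closedBall_zero_iff]
    exact Bdd.norm_int_le hC n
  have hle : ((U.map fun n => ∫ ω, X n ω ∂(P n) : Ultrafilter E) : Filter E) ≤
      𝓟 (Metric.closedBall (0 : E) C) := by
    rw [le_principal_iff, Ultrafilter.coe_map]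
    exact mem_map.mpr (Filter.mem_of_superset univ_mem fun n _ => hm n)
  obtain ⟨x, -, hx⟩ := hk.ultrafilter_le_nhds _ hle
  exact tendsto_nhds_limUnder ⟨x, hx⟩

theorem LE_eq_of_tendsto {x : E} (h : Tendsto (fun n => ∫ ω, X n ω ∂(P n)) U (𝓝 x)) :
    LE P U X = x := h.limUnder_eq

theorem Bdd.add (hX : Bdd X) (hY : Bdd Y) : Bdd (fun n ω => X n ω + Y n ω) := by
  obtain ⟨C, hC⟩ := hX.2
  obtain ⟨D, hD⟩ := hY.2
  exact ⟨fun n => (hX.1 n).add (hY.1 n), C + D, fun n ω =>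
    (norm_add_le _ _).trans (add_le_add (hC n ω) (hD n ω))⟩

theorem Bdd.sub (hX : Bdd X) (hY : Bdd Y) : Bdd (fun n ω => X n ω - Y n ω) := by
  obtain ⟨C, hC⟩ := hX.2
  obtain ⟨D, hD⟩ := hY.2
  exact ⟨fun n => (hX.1 n).sub (hY.1 n), C + D, fun n ω =>
    (norm_sub_le _ _).trans (add_le_add (hC n ω) (hD n ω))⟩

omit [ProperSpace E] in
theorem Bdd.const (c : E) : Bdd (fun (n : ℕ) (_ : Ω n) => c) :=
  ⟨fun _ => measurable_const, ‖c‖, fun _ _ => le_rfl⟩

theorem LE_add (hX : Bdd X) (hY : Bdd Y) :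
    LE P U (fun n ω => X n ω + Y n ω) = LE P U X + LE P U Y := by
  apply LE_eq_of_tendsto
  refine ((tendsto_LE hX).add (tendsto_LE hY)).congr fun n => ?_
  rw [integral_add (hX.integrable n) (hY.integrable n)]

theorem LE_sub (hX : Bdd X) (hY : Bdd Y) :
    LE P U (fun n ω => X n ω - Y n ω) = LE P U X - LE P U Y := by
  apply LE_eq_of_tendsto
  refine ((tendsto_LE hX).sub (tendsto_LE hY)).congr fun n => ?_
  rw [integral_sub (hX.integrable n) (hY.integrable n)]

theorem LE_const (c : E) : LE P U (fun (n : ℕ) (_ : Ω n) => c) = c := by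
  apply LE_eq_of_tendsto
  simp

/-- Random variables which are uniformly close have the same limit expectation. -/
theorem LE_congr_small (hX : Bdd X) (hY : Bdd Y) {e : ℕ → ℝ} (he : Tendsto e U (𝓝 0))
    (h : ∀ n ω, ‖X n ω - Y n ω‖ ≤ e n) : LE P U X = LE P U Y := by
  rw [← sub_eq_zero, ← LE_sub hX hY]
  apply LE_eq_of_tendsto
  refine squeeze_zero_norm (fun n => ?_) he
  have := norm_integral_le_of_norm_le_const (μ := P n) (f := fun ω => X n ω - Y n ω) (C := e n)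
    (Eventually.of_forall (h n))
  simpa using this

theorem LE_congr_ev (h : ∀ᶠ n in (U : Filter ℕ), X n = Y n) : LE P U X = LE P U Y := by
  unfold LE
  unfold limUnder
  congr 1
  apply Filter.map_congr
  filter_upwards [h] with n hn
  rw [hn]

end

section Real

variable {Ω : ℕ → Type*} [∀ n, MeasurableSpace (Ω n)] {P : ∀ n, Measure (Ω n)}
  [∀ n, IsProbabilityMeasure (P n)] {U : Ultrafilter ℕ} {X Y : ∀ n, Ω n → ℝ}
  {Z : ∀ n, Ω n → ℂ}

theorem LE_const_mul (c : ℝ) (hX : Bdd X) : LE P U (fun n ω => c * X n ω) = c * LE P U X := by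
  apply LE_eq_of_tendsto
  refine ((tendsto_LE hX).const_mul c).congr fun n => ?_
  rw [integral_const_mul]

theorem LE_const_mulC (c : ℂ) (hZ : Bdd Z) : LE P U (fun n ω => c * Z n ω) = c * LE P U Z := by
  apply LE_eq_of_tendsto
  refine ((tendsto_LE hZ).const_mul c).congr fun n => ?_
  rw [integral_const_mul]

theorem Bdd.const_mul (c : ℝ) (hX : Bdd X) : Bdd (fun n ω => c * X n ω) := by
  obtain ⟨C, hC⟩ := hX.2
  exact ⟨fun n => (hX.1 n).const_mul c, |c| * C, fun n ω => by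
    rw [norm_mul]; exact mul_le_mul_of_nonneg_left (hC n ω) (abs_nonneg c)⟩

theorem Bdd.const_mulC (c : ℂ) (hZ : Bdd Z) : Bdd (fun n ω => c * Z n ω) := by
  obtain ⟨C, hC⟩ := hZ.2
  exact ⟨fun n => (hZ.1 n).const_mul c, ‖c‖ * C, fun n ω => by
    rw [norm_mul]; exact mul_le_mul_of_nonneg_left (hC n ω) (norm_nonneg c)⟩

theorem Bdd.mul (hX : Bdd X) (hY : Bdd Y) : Bdd (fun n ω => X n ω * Y n ω) := by
  obtain ⟨C, hC0, hC⟩ := hX.pos
  obtain ⟨D, hD⟩ := hY.2
  exact ⟨fun n => (hX.1 n).mul (hY.1 n), C * D, fun n ω => by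
    rw [norm_mul]; exact mul_le_mul (hC n ω) (hD n ω) (norm_nonneg _) hC0.le⟩

theorem Bdd.mulC {Z' : ∀ n, Ω n → ℂ} (hX : Bdd Z) (hY : Bdd Z') :
    Bdd (fun n ω => Z n ω * Z' n ω) := by
  obtain ⟨C, hC0, hC⟩ := hX.pos
  obtain ⟨D, hD⟩ := hY.2
  exact ⟨fun n => (hX.1 n).mul (hY.1 n), C * D, fun n ω => by
    rw [norm_mul]; exact mul_le_mul (hC n ω) (hD n ω) (norm_nonneg _) hC0.le⟩

theorem Bdd.ofReal (hX : Bdd X) : Bdd (fun n ω => (X n ω : ℂ)) := by
  obtain ⟨C, hC⟩ := hX.2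
  exact ⟨fun n => Complex.measurable_ofReal.comp (hX.1 n), C, fun n ω => by
    rw [Complex.norm_real]; exact hC n ω⟩

theorem Bdd.re (hZ : Bdd Z) : Bdd (fun n ω => (Z n ω).re) := by
  obtain ⟨C, hC⟩ := hZ.2
  exact ⟨fun n => Complex.measurable_re.comp (hZ.1 n), C, fun n ω =>
    (Complex.abs_re_le_norm _).trans (hC n ω)⟩

theorem Bdd.im (hZ : Bdd Z) : Bdd (fun n ω => (Z n ω).im) := by
  obtain ⟨C, hC⟩ := hZ.2
  exact ⟨fun n => Complex.measurable_im.comp (hZ.1 n), C, fun n ω =>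
    (Complex.abs_im_le_norm _).trans (hC n ω)⟩

theorem Bdd.norm (hZ : Bdd Z) : Bdd (fun n ω => ‖Z n ω‖) := by
  obtain ⟨C, hC⟩ := hZ.2
  exact ⟨fun n => (hZ.1 n).norm, C, fun n ω => by rw [norm_norm]; exact hC n ω⟩

theorem LE_mono (hX : Bdd X) (hY : Bdd Y) (h : ∀ n ω, X n ω ≤ Y n ω) : LE P U X ≤ LE P U Y :=
  le_of_tendsto_of_tendsto' (tendsto_LE hX) (tendsto_LE hY) fun n =>
    integral_mono (hX.integrable n) (hY.integrable n) (h n)

theorem LE_mono_ev (hX : Bdd X) (hY : Bdd Y) (h : ∀ᶠ n in (U : Filter ℕ), ∀ ω, X n ω ≤ Y n ω) :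
    LE P U X ≤ LE P U Y := by
  refine le_of_tendsto_of_tendsto (tendsto_LE hX) (tendsto_LE hY) ?_
  filter_upwards [h] with n hn
  exact integral_mono (hX.integrable n) (hY.integrable n) hn

/-- Monotonicity up to errors tending to zero. -/
theorem LE_mono_small (hX : Bdd X) (hY : Bdd Y) {e : ℕ → ℝ} (he : Tendsto e U (𝓝 0))
    (h : ∀ n ω, X n ω ≤ Y n ω + e n) : LE P U X ≤ LE P U Y := by
  have h1 := (tendsto_LE (P := P) (U := U) hY).add he
  rw [add_zero] at h1
  refine le_of_tendsto_of_tendsto' (tendsto_LE hX) h1 fun n => ?_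
  have h2 : ∫ ω, X n ω ∂(P n) ≤ ∫ ω, (Y n ω + e n) ∂(P n) :=
    integral_mono (hX.integrable n) ((hY.integrable n).add (integrable_const _)) (h n)
  rwa [integral_add (hY.integrable n) (integrable_const _), integral_const, probReal_univ,
    one_smul] at h2

theorem LE_nonneg (hX : Bdd X) (h : ∀ n ω, 0 ≤ X n ω) : 0 ≤ LE P U X := by
  have := LE_mono (P := P) (U := U) (Bdd.const 0) hX h
  rwa [LE_const] at this

theorem LE_le_const (hX : Bdd X) {c : ℝ} (h : ∀ n ω, X n ω ≤ c) : LE P U X ≤ c := by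
  have := LE_mono (P := P) (U := U) hX (Bdd.const c) h
  rwa [LE_const] at this

theorem norm_LE_le (hZ : Bdd Z) : ‖LE P U Z‖ ≤ LE P U (fun n ω => ‖Z n ω‖) :=
  le_of_tendsto_of_tendsto' (tendsto_LE hZ).norm (tendsto_LE hZ.norm) fun _ =>
    norm_integral_le_integral_norm _

theorem LE_ofReal (hX : Bdd X) : LE P U (fun n ω => (X n ω : ℂ)) = ((LE P U X : ℝ) : ℂ) := by
  apply LE_eq_of_tendsto
  refine ((Complex.continuous_ofReal.tendsto _).comp (tendsto_LE hX)).congr fun n => ?_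
  simp only [Function.comp_apply]
  exact (integral_ofReal (𝕜 := ℂ) (f := X n) (μ := P n)).symm

theorem LE_re_im (hZ : Bdd Z) :
    LE P U Z = ((LE P U (fun n ω => (Z n ω).re) : ℝ) : ℂ) +
      ((LE P U (fun n ω => (Z n ω).im) : ℝ) : ℂ) * Complex.I := by
  rw [← LE_ofReal hZ.re, ← LE_ofReal hZ.im, mul_comm, ← LE_const_mulC _ hZ.im.ofReal,
    ← LE_add hZ.re.ofReal (hZ.im.ofReal.const_mulC _)]
  congr 1
  funext n ω
  rw [mul_comm]
  exact (Complex.re_add_im _).symm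

end Real

end Vale.Agent.P153.M1
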