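import Mathlib.Topology.Metrizable.ContinuousMap
import Mathlib.Topology.ContinuousMap.SecondCountableSpace
import Mathlib.Topology.UniformSpace.Ascoli
import Mathlib.Topology.MetricSpace.Equicontinuity
import Mathlib.Topology.UniformSpace.CompactConvergence
import Mathlib.MeasureTheory.Constructions.Polish.Basic
import Mathlib.MeasureTheory.Measure.Tight
import Mathlib.MeasureTheory.Measure.Regular
import Mathlib.Probability.Process.FiniteDimensionalLaws
import Mathlib.Analysis.SpecificLimits.Basic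
import Mathlib.Tactic

/-!
# P153, block M1: the path space `C(ℝ≥0, ℝ)`

Measurability and uniqueness of laws through evaluations, and a tightness criterion.
-/

namespace Vale.Agent.P153.M1

open MeasureTheory ProbabilityTheory Filter Topology Set
open scoped NNReal ENNReal

/-- Evaluation at a dense sequence of times. -/
noncomputable def evN (f : C(ℝ≥0, ℝ)) (n : ℕ) : ℝ := f (TopologicalSpace.denseSeq ℝ≥0 n)

theorem evN_continuous : Continuous evN :=
  continuous_pi fun _ => continuous_eval_const _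

theorem evN_injective : Function.Injective evN := by
  intro f g h
  ext t
  have h1 : (f : ℝ≥0 → ℝ) = g := by
    refine (TopologicalSpace.denseRange_denseSeq ℝ≥0).equalizer f.continuous g.continuous ?_
    funext n
    exact congrFun h n
  rw [h1]

section Borel

variable [MeasurableSpace C(ℝ≥0, ℝ)] [BorelSpace C(ℝ≥0, ℝ)]

theorem evN_embedding : MeasurableEmbedding evN := evN_continuous.measurableEmbedding evN_injective

/-- A path-valued map with measurable evaluations is measurable. -/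
theorem measurable_path {Ω : Type*} [MeasurableSpace Ω] {g : Ω → C(ℝ≥0, ℝ)}
    (h : ∀ t, Measurable fun ω => g ω t) : Measurable g := by
  rw [← evN_embedding.measurable_comp_iff]
  exact measurable_pi_lambda _ fun n => h _

/-- A law on the path space is determined by its finite dimensional laws. -/
theorem path_ext {μ ν : Measure C(ℝ≥0, ℝ)} [IsProbabilityMeasure μ] [IsProbabilityMeasure ν]
    (h : ∀ I : Finset ℝ≥0, μ.map (fun f => I.restrict (fun t => f t)) =
      ν.map (fun f => I.restrict (fun t => f t))) : μ = ν := by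
  have hm : ∀ I : Finset ℝ≥0, Measurable fun f : C(ℝ≥0, ℝ) => I.restrict (fun t => f t) :=
    fun I => measurable_pi_lambda _ fun t =>
      (continuous_eval_const (t : ℝ≥0)).measurable
  have h1 : μ.map evN = ν.map evN := by
    refine IsProjectiveLimit.unique
      (P := fun J : Finset ℕ => μ.map (fun f : C(ℝ≥0, ℝ) => J.restrict (evN f))) ?_ ?_
    · intro J
      rw [Measure.map_map (by fun_prop) evN_continuous.measurable]
      rfl
    · intro J
      rw [Measure.map_map (by fun_prop) evN_continuous.measurable]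
      classical
      set I : Finset ℝ≥0 := J.image (TopologicalSpace.denseSeq ℝ≥0) with hI
      set r : ((i : I) → ℝ) → ((j : J) → ℝ) := fun x j => x ⟨TopologicalSpace.denseSeq ℝ≥0 j,
        Finset.mem_image_of_mem _ j.2⟩ with hr
      have hrm : Measurable r := measurable_pi_lambda _ fun j => measurable_pi_apply _
      have e : (fun f : C(ℝ≥0, ℝ) => J.restrict (evN f)) = r ∘ fun f => I.restrict (fun t => f t) :=
        rfl
      have e' : (J.restrict ∘ evN : C(ℝ≥0, ℝ) → _) = r ∘ fun f => I.restrict (fun t => f t) := rfl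
      rw [e', ← Measure.map_map hrm (hm I)]
      change _ = μ.map (r ∘ fun f => I.restrict (fun t => f t))
      rw [← Measure.map_map hrm (hm I), h I]
  exact evN_embedding.map_injective h1

end Borel

/-- Oscillation larger than `ε` at scale `θ` on `[0, T]`. -/
def Osc (T θ ε : ℝ) : Set C(ℝ≥0, ℝ) :=
  {f | ∃ s t : ℝ≥0, s ≤ t ∧ (t : ℝ) ≤ T ∧ (t : ℝ) - s ≤ θ ∧ ε < |f t - f s|}

theorem isOpen_Osc (T θ ε : ℝ) : IsOpen (Osc T θ ε) := by
  have : Osc T θ ε = ⋃ (s : ℝ≥0) (t : ℝ≥0) (_ : s ≤ t ∧ (t : ℝ) ≤ T ∧ (t : ℝ) - s ≤ θ),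
      {f | ε < |f t - f s|} := by
    ext f
    simp only [Osc, mem_ofPred_eq, mem_iUnion]
    constructor
    · rintro ⟨s, t, h1, h2, h3, h4⟩
      exact ⟨s, t, ⟨h1, h2, h3⟩, h4⟩
    · rintro ⟨s, t, ⟨h1, h2, h3⟩, h4⟩
      exact ⟨s, t, h1, h2, h3, h4⟩
  rw [this]
  refine isOpen_iUnion fun s => isOpen_iUnion fun t => isOpen_iUnion fun _ => ?_
  exact isOpen_lt continuous_const
    (((continuous_eval_const t).sub (continuous_eval_const s)).abs)

theorem Osc_mono {T θ θ' ε : ℝ} (h : θ' ≤ θ) : Osc T θ' ε ⊆ Osc T θ ε :=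
  fun _ ⟨s, t, h1, h2, h3, h4⟩ => ⟨s, t, h1, h2, h3.trans h, h4⟩

theorem iInter_Osc (T : ℝ) {ε : ℝ} (hε : 0 < ε) : ⋂ j : ℕ, Osc T (1 / ((j : ℝ) + 1)) ε = ∅ := by
  rw [eq_empty_iff_forall_notMem]
  intro f hf
  have hK : IsCompact (Icc (0 : ℝ≥0) T.toNNReal) := isCompact_Icc
  have hu := hK.uniformContinuousOn_of_continuous f.continuous.continuousOn
  rw [Metric.uniformContinuousOn_iff] at hu
  obtain ⟨δ, hδ, H⟩ := hu ε hε
  obtain ⟨j, hj⟩ := exists_nat_one_div_lt hδ
  obtain ⟨s, t, h1, h2, h3, h4⟩ := mem_iInter.1 hf j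
  have hs0 : (s : ℝ) ≤ t := by exact_mod_cast h1
  have ht' : t ≤ T.toNNReal := NNReal.le_toNNReal_of_coe_le h2
  have h5 := H t ⟨zero_le, ht'⟩ s ⟨zero_le, h1.trans ht'⟩ (by
    rw [NNReal.dist_eq, abs_of_nonneg (by linarith)]
    linarith)
  rw [Real.dist_eq] at h5
  linarith

/-- The compact sets of Arzelà-Ascoli. -/
def AA (θ : ℕ → ℝ) : Set C(ℝ≥0, ℝ) :=
  {f | f 0 = 0 ∧ ∀ k : ℕ, ∀ s t : ℝ≥0, s ≤ t → (t : ℝ) ≤ k → (t : ℝ) - s ≤ θ k →
    |f t - f s| ≤ 1 / ((k : ℝ) + 1)}

/-- The same for arbitrary functions. -/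
def AA' (θ : ℕ → ℝ) : Set (ℝ≥0 → ℝ) :=
  {f | f 0 = 0 ∧ ∀ k : ℕ, ∀ s t : ℝ≥0, s ≤ t → (t : ℝ) ≤ k → (t : ℝ) - s ≤ θ k →
    |f t - f s| ≤ 1 / ((k : ℝ) + 1)}

theorem AA'_unif {θ : ℕ → ℝ} (hθ : ∀ k, 0 < θ k) (x : ℝ≥0) {ε : ℝ} (hε : 0 < ε) :
    ∃ δ > 0, ∀ y, dist y x < δ → ∀ f ∈ AA' θ, |f y - f x| < ε := by
  obtain ⟨j, hj⟩ := exists_nat_one_div_lt hε
  obtain ⟨i, hi⟩ := exists_nat_gt ((x : ℝ) + 1)
  set k := max i j with hk
  refine ⟨min 1 (θ k), lt_min one_pos (hθ k), fun y hy f hf => ?_⟩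
  have hkj : 1 / ((k : ℝ) + 1) ≤ 1 / ((j : ℝ) + 1) := by
    have : (j : ℝ) ≤ k := by exact_mod_cast le_max_right i j
    exact one_div_le_one_div_of_le (by positivity) (by linarith)
  have hki : (x : ℝ) + 1 < k := hi.trans_le (by exact_mod_cast le_max_left i j)
  rw [NNReal.dist_eq] at hy
  have h1 := hy.trans_le (min_le_left _ _)
  have h2 := hy.trans_le (min_le_right _ _)
  rw [abs_lt] at h1 h2
  refine lt_of_le_of_lt ?_ hj
  refine le_trans ?_ hkj
  rcases le_total x y with hxy | hxy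
  · exact hf.2 k x y hxy (by linarith) (by linarith)
  · rw [abs_sub_comm]
    exact hf.2 k y x hxy (by linarith) (by linarith)

theorem AA'_bd {θ : ℕ → ℝ} (hθ : ∀ k, 0 < θ k) (x : ℝ≥0) : ∃ M, ∀ f ∈ AA' θ, |f x| ≤ M := by
  obtain ⟨k, hk⟩ := exists_nat_gt (x : ℝ)
  obtain ⟨m, hm⟩ := exists_nat_gt ((x : ℝ) / θ k)
  have hm' : (x : ℝ) < m * θ k := by rwa [div_lt_iff₀ (hθ k)] at hm
  have hm0 : 0 < (m : ℝ) := by
    have := hθ k
    have hx : (0 : ℝ) ≤ x := x.2
    by_contra h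
    have : (m : ℝ) * θ k ≤ 0 := mul_nonpos_of_nonpos_of_nonneg (not_lt.1 h) this.le
    linarith
  refine ⟨m, fun f hf => ?_⟩
  have key : ∀ i : ℕ, i ≤ m → |f (x * (i / m))| ≤ i := by
    intro i
    induction i with
    | zero => intro _; simp [hf.1]
    | succ i ih =>
      intro hi
      have h1 := ih (by omega)
      have hx0 : (0 : ℝ) ≤ x := x.2
      have hmul : ∀ a : ℕ, (((x * (a / m) : ℝ≥0)) : ℝ) = x * (a / m) := by
        intro a; push_cast; rfl
      have h2 := hf.2 k (x * (i / m)) (x * ((i + 1 : ℕ) / m)) (by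
          gcongr
          exact Nat.le_succ i) (by
          rw [hmul]
          have h3 : ((i + 1 : ℕ) : ℝ) / m ≤ 1 := by
            rw [div_le_one hm0]
            exact_mod_cast hi
          nlinarith) (by
          rw [hmul, hmul]
          have h3 : (x : ℝ) * (((i + 1 : ℕ) : ℝ) / m) - x * ((i : ℝ) / m) = x / m := by
            push_cast
            field_simp
            ring
          rw [h3, div_le_iff₀ hm0]
          linarith)
      have h3 : 1 / ((k : ℝ) + 1) ≤ 1 := by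
        rw [div_le_one (by positivity)]
        have : (0 : ℝ) ≤ k := Nat.cast_nonneg k
        linarith
      have h4 := abs_sub_abs_le_abs_sub (f (x * ((i + 1 : ℕ) / m))) (f (x * (i / m)))
      push_cast at h2 h4 ⊢
      linarith
  have h5 := key m le_rfl
  have h6 : (x : ℝ≥0) * ((m : ℝ≥0) / m) = x := by
    rw [div_self, mul_one]
    intro h
    rw [Nat.cast_eq_zero] at h
    rw [h] at hm0
    simp at hm0
  rwa [h6] at h5

theorem isCompact_AA {θ : ℕ → ℝ} (hθ : ∀ k, 0 < θ k) : IsCompact (AA θ) := by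
  refine ArzelaAscoli.isCompact_of_equicontinuous _ ?_ ?_
  · have e : ContinuousMap.toFun '' AA θ = AA' θ := by
      ext f
      constructor
      · rintro ⟨g, hg, rfl⟩
        exact hg
      · intro hf
        refine ⟨⟨f, ?_⟩, hf, rfl⟩
        rw [continuous_iff_continuousAt]
        intro x
        rw [Metric.continuousAt_iff]
        intro ε hε
        obtain ⟨δ, hδ, H⟩ := AA'_unif hθ x hε
        refine ⟨δ, hδ, fun y hy => ?_⟩
        rw [Real.dist_eq]
        exact H y hy f hf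
    rw [e]
    choose M hM using AA'_bd hθ
    refine IsCompact.of_isClosed_subset (isCompact_univ_pi fun x : ℝ≥0 =>
      (isCompact_Icc (a := -M x) (b := M x))) ?_ ?_
    · have : AA' θ = {f | f 0 = 0} ∩ ⋂ (k : ℕ) (s : ℝ≥0) (t : ℝ≥0) (_ : s ≤ t) (_ : (t : ℝ) ≤ k)
          (_ : (t : ℝ) - s ≤ θ k), {f : ℝ≥0 → ℝ | |f t - f s| ≤ 1 / ((k : ℝ) + 1)} := by
        ext f
        simp only [AA', mem_ofPred_eq, mem_inter_iff, mem_iInter]
      rw [this]
      refine (isClosed_eq (continuous_apply 0) continuous_const).inter ?_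
      refine isClosed_iInter fun k => isClosed_iInter fun s => isClosed_iInter fun t =>
        isClosed_iInter fun _ => isClosed_iInter fun _ => isClosed_iInter fun _ => ?_
      exact isClosed_le ((continuous_apply t).sub (continuous_apply s)).abs continuous_const
    · intro f hf
      rw [mem_univ_pi]
      intro x
      exact abs_le.1 (hM x f hf)
  · intro x
    rw [Metric.equicontinuousAt_iff]
    intro ε hε
    obtain ⟨δ, hδ, H⟩ := AA'_unif hθ x hε
    refine ⟨δ, hδ, fun y hy f => ?_⟩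
    rw [dist_comm, Real.dist_eq]
    exact H y hy f.1 f.2

theorem compl_AA (θ : ℕ → ℝ) : (AA θ)ᶜ ⊆ {f : C(ℝ≥0, ℝ) | f 0 ≠ 0} ∪
    ⋃ k : ℕ, Osc k (θ k) (1 / ((k : ℝ) + 1)) := by
  intro f hf
  by_cases h0 : f 0 = 0
  · right
    rw [mem_iUnion]
    by_contra h
    push Not at h
    refine hf ⟨h0, fun k s t h1 h2 h3 => ?_⟩
    by_contra h4
    exact h k ⟨s, t, h1, h2, h3, not_le.1 h4⟩
  · exact Or.inl h0

variable [MeasurableSpace C(ℝ≥0, ℝ)] [BorelSpace C(ℝ≥0, ℝ)]

/-- **Tightness criterion on the path space.** -/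
theorem tight_of_modulus (ν : ℕ → Measure C(ℝ≥0, ℝ)) [∀ n, IsProbabilityMeasure (ν n)]
    (h0 : ∀ n, ∀ᵐ f ∂(ν n), f 0 = 0)
    (h : ∀ T : ℝ, 0 ≤ T → ∀ ε : ℝ, 0 < ε → ∀ η : ℝ, 0 < η → ∃ θ : ℝ, 0 < θ ∧
      ∀ᶠ n in atTop, (ν n).real (Osc T θ ε) ≤ η) : IsTightMeasureSet (range ν) := by
  -- uniformly in `n`
  have h' : ∀ T : ℝ, 0 ≤ T → ∀ ε : ℝ, 0 < ε → ∀ η : ℝ≥0∞, 0 < η → ∃ θ : ℝ, 0 < θ ∧
      ∀ n, ν n (Osc T θ ε) ≤ η := by
    intro T hT ε hε η hη
    obtain ⟨η', hη'0, hη'⟩ : ∃ η' : ℝ, 0 < η' ∧ ENNReal.ofReal η' ≤ η := by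
      obtain ⟨a, ha0, ha⟩ := exists_between hη
      refine ⟨a.toReal, ENNReal.toReal_pos ha0.ne' ha.ne_top, ?_⟩
      rw [ENNReal.ofReal_toReal ha.ne_top]
      exact ha.le
    obtain ⟨θ, hθ, hev⟩ := h T hT ε hε η' hη'0
    obtain ⟨N, hN⟩ := eventually_atTop.1 hev
    have hone : ∀ n, ∃ θ' : ℝ, 0 < θ' ∧ ν n (Osc T θ' ε) ≤ η := by
      intro n
      have h1 : Tendsto (fun j : ℕ => ν n (Osc T (1 / ((j : ℝ) + 1)) ε)) atTop (𝓝 0) := by
        have h2 := tendsto_measure_iInter_atTop (μ := ν n)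
          (s := fun j : ℕ => Osc T (1 / ((j : ℝ) + 1)) ε)
          (fun j => (isOpen_Osc _ _ _).measurableSet.nullMeasurableSet)
          (fun i j hij => Osc_mono (one_div_le_one_div_of_le (by positivity) (by
            have : (i : ℝ) ≤ j := by exact_mod_cast hij
            linarith))) ⟨0, measure_ne_top _ _⟩
        rwa [iInter_Osc T hε, measure_empty] at h2
      obtain ⟨j, hj⟩ := (h1.eventually_le_const hη).exists
      exact ⟨1 / ((j : ℝ) + 1), by positivity, hj⟩
    choose θ' hθ' hν' using hone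
    have hmin : ∀ M : ℕ, ∃ θ'' : ℝ, 0 < θ'' ∧ ∀ n < M, ν n (Osc T θ'' ε) ≤ η := by
      intro M
      induction M with
      | zero => exact ⟨1, one_pos, fun n hn => absurd hn (Nat.not_lt_zero n)⟩
      | succ M ih =>
        obtain ⟨a, ha, H⟩ := ih
        refine ⟨min a (θ' M), lt_min ha (hθ' M), fun n hn => ?_⟩
        rcases Nat.lt_succ_iff_lt_or_eq.1 hn with h1 | h1
        · exact (measure_mono (Osc_mono (min_le_left _ _))).trans (H n h1)
        · rw [h1]
          exact (measure_mono (Osc_mono (min_le_right _ _))).trans (hν' M)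
    obtain ⟨a, ha, H⟩ := hmin N
    refine ⟨min a θ, lt_min ha hθ, fun n => ?_⟩
    rcases lt_or_ge n N with h1 | h1
    · exact (measure_mono (Osc_mono (min_le_left _ _))).trans (H n h1)
    · refine (measure_mono (Osc_mono (min_le_right _ _))).trans (le_trans ?_ hη')
      rw [← ENNReal.ofReal_toReal (measure_ne_top (ν n) (Osc T θ ε))]
      exact ENNReal.ofReal_le_ofReal (hN n h1)
  rw [isTightMeasureSet_iff_exists_isCompact_measure_compl_le]
  intro η hη
  obtain ⟨η', hη'pos, hη'sum⟩ := ENNReal.exists_pos_sum_of_countable' hη.ne' ℕ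
  choose θ hθ hν using fun k : ℕ => h' k (Nat.cast_nonneg k) (1 / ((k : ℝ) + 1)) (by positivity)
    (η' k) (hη'pos k)
  refine ⟨AA θ, isCompact_AA hθ, ?_⟩
  rintro _ ⟨n, rfl⟩
  refine (measure_mono (compl_AA θ)).trans ?_
  refine (measure_union_le _ _).trans ?_
  have h1 : ν n {f : C(ℝ≥0, ℝ) | f 0 ≠ 0} = 0 := h0 n
  rw [h1, zero_add]
  exact (measure_iUnion_le _).trans ((ENNReal.tsum_le_tsum fun k => hν k n).trans hη'sum.le)

end Vale.Agent.P153.M1
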