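import Vale.Agent.P153.R2.M1.Obs
import Vale.Agent.P153.R2.M1.Path
import Vale.Agent.P153.R2.M1.Brown
import Vale.Agent.P153.R2.BESS.Stmt
import Mathlib.MeasureTheory.Measure.Prokhorov

/-!
# P153, block M1: main theorems

A system `S` (driving functions and exploration filtrations on a sequence of probability spaces)
which is `Ok` (small steps) and satisfies the approximate martingale property of the observable
`arg (g_t(z) - W_t)` (`Obs`), has driving functions which are tight in `C(ℝ≥0, ℝ)` and converge in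
law to `2 B`, `B` a standard Brownian motion.
-/

namespace Vale.Agent.P153.M1

open MeasureTheory ProbabilityTheory Filter Topology Set Complex
open scoped NNReal ENNReal

variable [MeasurableSpace C(ℝ≥0, ℝ)] [BorelSpace C(ℝ≥0, ℝ)]

section Law

variable {E E' : Type*} [MeasurableSpace E] [MeasurableSpace E'] {μ : Measure E} {μ' : Measure E'}
  {Z : E → C(ℝ≥0, ℝ)} {Z' : E' → C(ℝ≥0, ℝ)}

theorem fdd_eq (hB : IsPreBrownianReal (fun t x => Z x t / 2) μ) (hZ : Measurable Z)
    (I : Finset ℝ≥0) : (μ.map Z).map (fun f => I.restrict (fun t => f t)) =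
      (BrownianReal.projectiveFamily I).map (fun x => fun i => 2 * x i) := by
  have h1 := (hB.hasLaw I).map_eq
  rw [← h1]
  have hm : Measurable fun f : C(ℝ≥0, ℝ) => I.restrict (fun t => f t) :=
    measurable_pi_lambda _ fun t => (continuous_eval_const (t : ℝ≥0)).measurable
  have hm2 : Measurable fun (x : E) => I.restrict (fun t => Z x t / 2) :=
    measurable_pi_lambda _ fun t => by
      exact ((continuous_eval_const (t : ℝ≥0)).measurable.comp hZ).div_const 2
  rw [Measure.map_map hm hZ, Measure.map_map (by fun_prop) hm2]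
  congr 1
  funext x
  funext i
  simp only [Function.comp_apply, Finset.restrict]
  ring

/-- The law of `2 B` on the path space is unique. -/
theorem law_unique (hB : IsPreBrownianReal (fun t x => Z x t / 2) μ)
    (hB' : IsPreBrownianReal (fun t x => Z' x t / 2) μ') (hZ : Measurable Z) (hZ' : Measurable Z') :
    μ.map Z = μ'.map Z' := by
  have : IsProbabilityMeasure μ := hB.isGaussianProcess.isProbabilityMeasure
  have : IsProbabilityMeasure μ' := hB'.isGaussianProcess.isProbabilityMeasure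
  have : IsProbabilityMeasure (μ.map Z) := Measure.isProbabilityMeasure_map hZ.aemeasurable
  have : IsProbabilityMeasure (μ'.map Z') := Measure.isProbabilityMeasure_map hZ'.aemeasurable
  exact path_ext fun I => by rw [fdd_eq hB hZ, fdd_eq hB' hZ']

/-- The integral of a bounded continuous complex function, real and imaginary parts. -/
theorem int_re_im {A : Type*} [MeasurableSpace A] (ρ : Measure A) [IsProbabilityMeasure ρ]
    {Y : A → C(ℝ≥0, ℝ)} (hY : Measurable Y) {f : C(ℝ≥0, ℝ) → ℂ} (hf : Continuous f) {C : ℝ}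
    (hC : ∀ x, ‖f x‖ ≤ C) : ∫ x, f (Y x) ∂ρ =
      ((∫ x, (f (Y x)).re ∂ρ : ℝ) : ℂ) + ((∫ x, (f (Y x)).im ∂ρ : ℝ) : ℂ) * I := by
  have hi : Integrable (fun x => f (Y x)) ρ :=
    Integrable.of_bound (hf.measurable.comp hY).aestronglyMeasurable C
      (Eventually.of_forall fun x => hC _)
  exact (integral_re_add_im hi).symm

omit [MeasurableSpace C(ℝ≥0, ℝ)] [BorelSpace C(ℝ≥0, ℝ)] in
theorem driver4_of_brownian (hB : IsBrownianReal (fun t x => Z x t / 2) μ) :
    BESS.IsDriver4 μ (fun x t => Z x t.toNNReal) :=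
  ⟨fun t x => Z x t / 2, hB, ae_of_all _ fun x t _ => by ring⟩

end Law

namespace Sys

variable {Ω : ℕ → Type*} [mΩ : ∀ n, MeasurableSpace (Ω n)] (S : Sys Ω)

/-- The driving function as a random element of the path space. -/
noncomputable def path (hc : ∀ n ω, ContinuousOn (S.W n ω) (Ici 0)) (n : ℕ) (ω : Ω n) :
    C(ℝ≥0, ℝ) where
  toFun t := S.W n ω t
  continuous_toFun := (hc n ω).comp_continuous NNReal.continuous_coe fun t => t.2

omit [MeasurableSpace C(ℝ≥0, ℝ)] [BorelSpace C(ℝ≥0, ℝ)] in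
@[simp] theorem path_apply (hc : ∀ n ω, ContinuousOn (S.W n ω) (Ici 0)) (n : ℕ) (ω : Ω n)
    (t : ℝ≥0) : S.path hc n ω t = S.W n ω t := rfl

variable {S} {P : ∀ n, Measure (Ω n)} [∀ n, IsProbabilityMeasure (P n)]
  (hc : ∀ n ω, ContinuousOn (S.W n ω) (Ici 0))

include hc

omit [∀ n, IsProbabilityMeasure (P n)] in
theorem path_meas (hS : S.Ok) (n : ℕ) : Measurable (S.path hc n) :=
  measurable_path fun t => hS.measW n t

/-- **(O4) tightness of the laws of the driving functions.** -/
theorem path_tight (hS : S.Ok) (hM : S.AM P) :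
    IsTightMeasureSet (range fun n => (P n).map (S.path hc n)) := by
  have : ∀ n, IsProbabilityMeasure ((P n).map (S.path hc n)) := fun n =>
    Measure.isProbabilityMeasure_map (path_meas hc hS n).aemeasurable
  refine tight_of_modulus _ (fun n => ?_) (fun T hT ε hε η hη => ?_)
  · rw [ae_map_iff (path_meas hc hS n).aemeasurable
      (isClosed_eq (continuous_eval_const (0 : ℝ≥0)) continuous_const).measurableSet]
    exact ae_of_all _ fun ω => hS.W0 n ω
  · obtain ⟨θ, hθ, h⟩ := modulus hS hM hT hε hη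
    refine ⟨θ, hθ, h.mono fun n hn => ?_⟩
    rw [map_measureReal_apply (path_meas hc hS n) (isOpen_Osc _ _ _).measurableSet]
    refine le_trans (measureReal_mono ?_ (measure_ne_top _ _)) hn
    rintro ω ⟨s, t, h1, h2, h3, h4⟩
    exact ⟨s, t, s.2, by exact_mod_cast h1, h2, h3, h4⟩

/-- Weak convergence of the laws of the driving functions along `θ` to the law of `Z`. -/
def Lim (P : ∀ n, Measure (Ω n)) (hc : ∀ n ω, ContinuousOn (S.W n ω) (Ici 0)) (θ : ℕ → ℕ)
    {E : Type*} [MeasurableSpace E] (μ : Measure E) (Z : E → C(ℝ≥0, ℝ)) : Prop :=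
  ∀ f : C(ℝ≥0, ℝ) → ℝ, Continuous f → (∃ C, ∀ x, |f x| ≤ C) →
    Tendsto (fun n => ∫ ω, f (S.path hc (θ n) ω) ∂(P (θ n))) atTop (𝓝 (∫ x, f (Z x) ∂μ))

variable {θ : ℕ → ℕ} {E : Type*} [MeasurableSpace E] {μ : Measure E} [IsProbabilityMeasure μ]
  {Z : E → C(ℝ≥0, ℝ)}

theorem Lim.complex (h : Lim P hc θ μ Z) (hS : S.Ok) (hZ : Measurable Z) {f : C(ℝ≥0, ℝ) → ℂ}
    (hf : Continuous f) {C : ℝ} (hC : ∀ x, ‖f x‖ ≤ C) :
    Tendsto (fun n => ∫ ω, f (S.path hc (θ n) ω) ∂(P (θ n))) atTop (𝓝 (∫ x, f (Z x) ∂μ)) := by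
  have h1 := h (fun x => (f x).re) (Complex.continuous_re.comp hf)
    ⟨C, fun x => (Complex.abs_re_le_norm _).trans (hC x)⟩
  have h2 := h (fun x => (f x).im) (Complex.continuous_im.comp hf)
    ⟨C, fun x => (Complex.abs_im_le_norm _).trans (hC x)⟩
  have h3 := ((Complex.continuous_ofReal.tendsto _).comp h1).add
    (((Complex.continuous_ofReal.tendsto _).comp h2).mul_const I)
  rw [int_re_im μ hZ hf hC]
  refine h3.congr fun n => ?_
  exact (int_re_im (P (θ n)) (path_meas hc hS (θ n)) hf hC).symm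

/-- **(O3) every weak limit of the driving functions is `2 B`.** -/
theorem Lim.brownian (h : Lim P hc θ μ Z) (hS : S.Ok) (hM : S.AM P) (hθ : Tendsto θ atTop atTop)
    (hZ : Measurable Z) : IsBrownianReal (fun t x => Z x t / 2) μ := by
  have hm : ∀ t : ℝ≥0, Measurable fun x => Z x t := fun t =>
    (continuous_eval_const t).measurable.comp hZ
  have h0 : ∀ᵐ x ∂μ, Z x 0 = 0 := by
    have h1 := h (fun f => min |f 0| 1)
      ((continuous_abs.comp (continuous_eval_const (0 : ℝ≥0))).min continuous_const)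
      ⟨1, fun x => by
        rw [abs_of_nonneg (le_min (abs_nonneg _) zero_le_one)]
        exact min_le_right _ _⟩
    have h2 : ∀ n, ∫ ω, min |S.path hc (θ n) ω 0| 1 ∂(P (θ n)) = 0 := by
      intro n
      simp [hS.W0]
    simp only [h2] at h1
    have h3 : ∫ x, min |Z x 0| 1 ∂μ = 0 := (tendsto_nhds_unique h1 tendsto_const_nhds)
    have hi : Integrable (fun x => min |Z x 0| 1) μ :=
      Integrable.of_bound (((hm 0).abs.min measurable_const)).aestronglyMeasurable 1
        (Eventually.of_forall fun x => by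
          rw [Real.norm_eq_abs, abs_of_nonneg (le_min (abs_nonneg _) zero_le_one)]
          exact min_le_right _ _)
    rw [integral_eq_zero_iff_of_nonneg (fun x => le_min (abs_nonneg _) zero_le_one) hi] at h3
    filter_upwards [h3] with x hx
    have hx' : min |Z x 0| 1 = 0 := hx
    rcases min_choice |Z x 0| 1 with h4 | h4
    · rw [h4] at hx'
      exact abs_eq_zero.1 hx'
    · rw [h4] at hx'
      exact absurd hx' one_ne_zero
  refine ⟨CharB.isPreBrownianReal ?_ (fun t => ((hm t).div_const 2).aemeasurable) ?_,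
    ae_of_all _ fun x => (Z x).continuous.div_const 2⟩
  · intro s hs l m
    have h1 := tendsto_charFun hS hM (s := fun j => (s j : ℝ))
      (fun i j hij => by exact_mod_cast hs hij) (s 0).2 (fun j => l j / 2) m
    have h2 := h.complex hc hS hZ (f := fun f => cexp (((∑ j ∈ Finset.range m, l j / 2 *
      (f (s (j + 1)) - f (s j)) : ℝ) : ℂ) * I)) (by
        refine Complex.continuous_exp.comp ((Complex.continuous_ofReal.comp ?_).mul
          continuous_const)
        refine continuous_finsetSum _ fun j _ => continuous_const.mul ?_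
        exact (continuous_eval_const _).sub (continuous_eval_const _)) (C := 1) (fun x => by
        rw [Complex.norm_exp_ofReal_mul_I])
    have h3 := tendsto_nhds_unique h2 (h1.comp hθ)
    have e1 : ∀ x, (∑ j ∈ Finset.range m, l j * (Z x (s (j + 1)) / 2 - Z x (s j) / 2)) =
        ∑ j ∈ Finset.range m, l j / 2 * (Z x (s (j + 1)) - Z x (s j)) := by
      intro x
      refine Finset.sum_congr rfl fun j _ => ?_
      ring
    have e2 : (∑ j ∈ Finset.range m, l j ^ 2 / 2 * ((s (j + 1) : ℝ) - s j)) =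
        ∑ j ∈ Finset.range m, 2 * (l j / 2) ^ 2 * ((s (j + 1) : ℝ) - s j) := by
      refine Finset.sum_congr rfl fun j _ => ?_
      ring
    simp only [e1]
    rw [e2]
    exact h3
  · filter_upwards [h0] with x hx
    rw [hx, zero_div]

omit [BorelSpace C(ℝ≥0, ℝ)] [∀ n, IsProbabilityMeasure (P n)] [IsProbabilityMeasure μ] in
/-- The driver marginal of a joint weak limit. -/
theorem Lim.of_joint {G : Type*} [TopologicalSpace G] [MeasurableSpace G]
    {ν : Measure (G × C(ℝ≥0, ℝ))} {X : ∀ n, Ω n → G}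
    (h : ∀ f : G × C(ℝ≥0, ℝ) → ℝ, Continuous f → (∃ C, ∀ x, |f x| ≤ C) →
      Tendsto (fun n => ∫ ω, f (X (θ n) ω, S.path hc (θ n) ω) ∂(P (θ n))) atTop
        (𝓝 (∫ x, f x ∂ν))) : Lim P hc θ ν Prod.snd := by
  intro f hf hC
  obtain ⟨C, hC⟩ := hC
  exact h (fun x => f x.2) (hf.comp continuous_snd) ⟨C, fun x => hC _⟩

omit [MeasurableSpace C(ℝ≥0, ℝ)] [BorelSpace C(ℝ≥0, ℝ)] hc in
theorem exists_subseq_lim [MeasurableSpace C(ℝ≥0, ℝ)] [BorelSpace C(ℝ≥0, ℝ)]
    (hc : ∀ n ω, ContinuousOn (S.W n ω) (Ici 0)) (hS : S.Ok) (hM : S.AM P) (ψ : ℕ → ℕ) :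
    ∃ (θ : ℕ → ℕ) (_ : StrictMono θ) (ν : Measure C(ℝ≥0, ℝ)) (_ : IsProbabilityMeasure ν),
      Lim P hc (fun n => ψ (θ n)) ν id := by
  have hp : ∀ n, IsProbabilityMeasure ((P n).map (S.path hc n)) := fun n =>
    Measure.isProbabilityMeasure_map (path_meas hc hS n).aemeasurable
  let p : ℕ → ProbabilityMeasure C(ℝ≥0, ℝ) := fun n => ⟨(P n).map (S.path hc n), hp n⟩
  have hcp : IsCompact (closure (range p)) := by
    refine isCompact_closure_of_isTightMeasureSet ?_
    refine (path_tight hc hS hM).subset ?_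
    rintro _ ⟨q, ⟨n, rfl⟩, rfl⟩
    exact ⟨n, rfl⟩
  obtain ⟨ν, -, θ, hθ, hlim⟩ := hcp.tendsto_subseq (x := fun n => p (ψ n))
    fun n => subset_closure ⟨ψ n, rfl⟩
  refine ⟨θ, hθ, ν, inferInstance, fun f hf hC => ?_⟩
  obtain ⟨C, hC⟩ := hC
  have h := (ProbabilityMeasure.tendsto_iff_forall_integral_tendsto.1 hlim)
    (BoundedContinuousFunction.ofNormedAddCommGroup f hf C hC)
  refine h.congr fun n => ?_
  exact integral_map (path_meas hc hS (ψ (θ n))).aemeasurable hf.aestronglyMeasurable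

/-- **The driving functions converge in law to `2 B`.** -/
theorem weak_limit (hS : S.Ok) (hM : S.AM P) :
    ∃ (ν : Measure C(ℝ≥0, ℝ)) (_ : IsProbabilityMeasure ν),
      IsBrownianReal (fun t (f : C(ℝ≥0, ℝ)) => f t / 2) ν ∧ Lim P hc id ν id := by
  obtain ⟨θ, hθ, ν, hν, hlim⟩ := exists_subseq_lim hc hS hM id
  have hB : IsBrownianReal (fun t (f : C(ℝ≥0, ℝ)) => f t / 2) ν :=
    Lim.brownian (Z := id) hc hlim hS hM (hθ.tendsto_atTop) measurable_id
  refine ⟨ν, hν, hB, fun f hf hC => ?_⟩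
  refine tendsto_of_subseq_tendsto fun ψ hψ => ?_
  obtain ⟨θ', hθ', ν', hν', hlim'⟩ := exists_subseq_lim hc hS hM ψ
  have hB' : IsBrownianReal (fun t (f : C(ℝ≥0, ℝ)) => f t / 2) ν' :=
    Lim.brownian (Z := id) hc hlim' hS hM (hψ.comp hθ'.tendsto_atTop) measurable_id
  have e : ν = ν' := by
    have := law_unique (Z := id) (Z' := id) hB.toIsPreBrownianReal hB'.toIsPreBrownianReal
      measurable_id measurable_id
    rwa [Measure.map_id, Measure.map_id] at this
  refine ⟨θ', ?_⟩
  rw [e]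
  exact hlim' f hf hC

omit hc in
/-- **Summary for the discrete interfaces.** If the observable is an approximate martingale then the
laws of the driving functions are tight, and every joint subsequential limit has driver `2 B`. -/
theorem Obs.main (hS : S.Ok) (hO : S.Obs P) :
    IsTightMeasureSet (range fun n => (P n).map (S.path hO.cont n)) ∧
    ∀ {G : Type*} [TopologicalSpace G] [MeasurableSpace G] (ν : Measure (G × C(ℝ≥0, ℝ)))
      (_ : IsProbabilityMeasure ν) (X : ∀ n, Ω n → G) (θ : ℕ → ℕ), Tendsto θ atTop atTop →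
      (∀ f : G × C(ℝ≥0, ℝ) → ℝ, Continuous f → (∃ C, ∀ x, |f x| ≤ C) →
      Tendsto (fun n => ∫ ω, f (X (θ n) ω, S.path hO.cont (θ n) ω) ∂(P (θ n))) atTop
        (𝓝 (∫ x, f x ∂ν))) →
      BESS.IsDriver4 ν (fun x t => x.2 t.toNNReal) := by
  refine ⟨path_tight hO.cont hS (hO.am hS), ?_⟩
  intro G _ _ ν hν X θ hθ h
  exact driver4_of_brownian (Z := Prod.snd) (Lim.brownian hO.cont (Lim.of_joint hO.cont h) hS
    (hO.am hS) hθ measurable_snd)

end Sys

end Vale.Agent.P153.M1
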