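import Vale.Agent.P153.R2.M1.Sys

/-!
# P153, block M1: the limit martingale identities and the tail bound
-/

set_option linter.unusedSectionVars false
set_option linter.unusedVariables false

namespace Vale.Agent.P153.M1

open MeasureTheory Filter Topology Set

namespace Sys

variable {Ω : ℕ → Type*} [mΩ : ∀ n, MeasurableSpace (Ω n)] {S : Sys Ω}
  {P : ∀ n, Measure (Ω n)} [∀ n, IsProbabilityMeasure (P n)] {U : Ultrafilter ℕ}
  {κ κ' κ'' : ∀ n, Ω n → ℕ} {T R : ℝ}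

/-- First identity: `W` is a martingale in the limit. -/
theorem lim1 (hS : S.Ok) (hM : S.AM P) (hU : (U : Filter ℕ) ≤ atTop)
    (hκ : ∀ n, IsStop (S.F n) (κ n)) (hκ' : S.St T R κ') (hle : ∀ n ω, κ n ω ≤ κ' n ω)
    {Y : ∀ n, Ω n → ℝ} (hY : ∀ n, Past (S.F n) (κ n) (Y n)) (hb : ∃ C, ∀ n ω, |Y n ω| ≤ C) :
    LE P U (fun n ω => (S.Va κ' n ω - S.Va κ n ω) * Y n ω) = 0 := by
  obtain ⟨C, hC⟩ := hb
  obtain ⟨D, hD0, hD⟩ : ∃ D, 0 < D ∧ ∀ n ω, |Y n ω| ≤ D :=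
    ⟨max C 1, by positivity, fun n ω => (hC n ω).trans (le_max_left _ _)⟩
  apply LE_eq_of_tendsto
  have h1 := hM.m1 T R κ κ' (fun n ω => D⁻¹ * Y n ω) hκ hκ' hle
    (fun n => (hY n).comp (hκ n) (measurable_const_mul D⁻¹)) (fun n ω => by
      rw [abs_mul, abs_of_pos (inv_pos.2 hD0)]
      rw [inv_mul_le_iff₀ hD0, mul_one]
      exact hD n ω)
  have h2 := (h1.const_mul D).mono_left hU
  rw [mul_zero] at h2
  refine h2.congr fun n => ?_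
  rw [← integral_const_mul]
  congr 1
  funext ω
  field_simp

theorem lim2 (hS : S.Ok) (hM : S.AM P) (hU : (U : Filter ℕ) ≤ atTop)
    (hκ : ∀ n, IsStop (S.F n) (κ n)) (hκ' : S.St T R κ') (hle : ∀ n ω, κ n ω ≤ κ' n ω)
    {Y : ∀ n, Ω n → ℝ} (hY : ∀ n, Past (S.F n) (κ n) (Y n)) (hb : ∃ C, ∀ n ω, |Y n ω| ≤ C) :
    LE P U (fun n ω => ((S.Va κ' n ω ^ 2 - 4 * S.Ta κ' n ω) -
      (S.Va κ n ω ^ 2 - 4 * S.Ta κ n ω)) * Y n ω) = 0 := by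
  obtain ⟨C, hC⟩ := hb
  obtain ⟨D, hD0, hD⟩ : ∃ D, 0 < D ∧ ∀ n ω, |Y n ω| ≤ D :=
    ⟨max C 1, by positivity, fun n ω => (hC n ω).trans (le_max_left _ _)⟩
  apply LE_eq_of_tendsto
  have h1 := hM.m2 T R κ κ' (fun n ω => D⁻¹ * Y n ω) hκ hκ' hle
    (fun n => (hY n).comp (hκ n) (measurable_const_mul D⁻¹)) (fun n ω => by
      rw [abs_mul, abs_of_pos (inv_pos.2 hD0)]
      rw [inv_mul_le_iff₀ hD0, mul_one]
      exact hD n ω)
  have h2 := (h1.const_mul D).mono_left hU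
  rw [mul_zero] at h2
  refine h2.congr fun n => ?_
  rw [← integral_const_mul]
  congr 1
  funext ω
  field_simp

/-- Second identity: the squared increment has the same limit expectation as four times the
elapsed time. -/
theorem limsq (hS : S.Ok) (hM : S.AM P) (hU : (U : Filter ℕ) ≤ atTop)
    (hκ : ∀ n, IsStop (S.F n) (κ n)) (hκ' : S.St T R κ') (hle : ∀ n ω, κ n ω ≤ κ' n ω)
    {Y : ∀ n, Ω n → ℝ} (hY : ∀ n, Past (S.F n) (κ n) (Y n)) (hb : ∃ C, ∀ n ω, |Y n ω| ≤ C) :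
    LE P U (fun n ω => (S.Va κ' n ω - S.Va κ n ω) ^ 2 * Y n ω) =
      4 * LE P U (fun n ω => (S.Ta κ' n ω - S.Ta κ n ω) * Y n ω) := by
  have hκs : S.St T R κ := hκ'.of_le hκ hle
  have bY : Bdd Y := ⟨fun n => (hY n).measurable (hκ n), hb⟩
  have bV := hS.bddV hκs
  have bV' := hS.bddV hκ'
  have bT := hS.bddT hκs
  have bT' := hS.bddT hκ'
  obtain ⟨D, hD⟩ := bV.2
  have hY2 : ∀ n, Past (S.F n) (κ n) (fun ω => S.Va κ n ω * Y n ω) := fun n =>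
    (hS.pastV hκ n).comp₂ (hY n) (hκ n) (f := fun a b => a * b) (by fun_prop)
  have hb2 : ∃ C, ∀ n ω, |S.Va κ n ω * Y n ω| ≤ C := by
    obtain ⟨C, hC⟩ := (bV.mul bY).2
    exact ⟨C, hC⟩
  have e1 := lim1 (U := U) hS hM hU hκ hκ' hle hY2 hb2
  have e2 := lim2 (U := U) hS hM hU hκ hκ' hle hY hb
  have b1 : Bdd (fun n ω => (S.Va κ' n ω - S.Va κ n ω) * (S.Va κ n ω * Y n ω)) :=
    (bV'.sub bV).mul (bV.mul bY)
  have b2 : Bdd (fun n ω => ((S.Va κ' n ω ^ 2 - 4 * S.Ta κ' n ω) -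
      (S.Va κ n ω ^ 2 - 4 * S.Ta κ n ω)) * Y n ω) := by
    have : Bdd (fun n ω => ((S.Va κ' n ω * S.Va κ' n ω - 4 * S.Ta κ' n ω) -
      (S.Va κ n ω * S.Va κ n ω - 4 * S.Ta κ n ω)) * Y n ω) :=
      (((bV'.mul bV').sub (bT'.const_mul 4)).sub ((bV.mul bV).sub (bT.const_mul 4))).mul bY
    simpa only [sq] using this
  have b3 : Bdd (fun n ω => (S.Ta κ' n ω - S.Ta κ n ω) * Y n ω) := (bT'.sub bT).mul bY
  have e3 : LE P U (fun n ω => (((S.Va κ' n ω ^ 2 - 4 * S.Ta κ' n ω) -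
      (S.Va κ n ω ^ 2 - 4 * S.Ta κ n ω)) * Y n ω - 2 * ((S.Va κ' n ω - S.Va κ n ω) *
      (S.Va κ n ω * Y n ω))) + 4 * ((S.Ta κ' n ω - S.Ta κ n ω) * Y n ω)) =
      4 * LE P U (fun n ω => (S.Ta κ' n ω - S.Ta κ n ω) * Y n ω) := by
    rw [LE_add (b2.sub (b1.const_mul 2)) (b3.const_mul 4), LE_sub b2 (b1.const_mul 2),
      LE_const_mul _ b1, LE_const_mul _ b3, e1, e2]
    ring
  rw [← e3]
  congr 1
  funext n ω
  ring

/-- Chebyshev: the limit probability of an increment of size at least `ε`. -/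
theorem cheb (hS : S.Ok) (hM : S.AM P) (hU : (U : Filter ℕ) ≤ atTop)
    (hκ : ∀ n, IsStop (S.F n) (κ n)) (hκ' : S.St T R κ') (hle : ∀ n ω, κ n ω ≤ κ' n ω)
    {Y : ∀ n, Ω n → ℝ} (hY : ∀ n, Past (S.F n) (κ n) (Y n)) (hb : ∃ C, ∀ n ω, |Y n ω| ≤ C)
    (hY0 : ∀ n ω, 0 ≤ Y n ω) {h : ℝ} (hh : 0 ≤ h) {e : ℕ → ℝ} (he : Tendsto e U (𝓝 0))
    (hT : ∀ n ω, S.Ta κ' n ω - S.Ta κ n ω ≤ h + e n) {ε : ℝ} (hε : 0 < ε) {Z : ∀ n, Ω n → ℝ}
    (hZ : Bdd Z) (hZY : ∀ n ω, Z n ω ≤ 0 ∨ (Z n ω ≤ Y n ω ∧ ε ≤ |S.Va κ' n ω - S.Va κ n ω|)) :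
    LE P U Z ≤ 4 * h / ε ^ 2 * LE P U Y := by
  have hκs : S.St T R κ := hκ'.of_le hκ hle
  have bY : Bdd Y := ⟨fun n => (hY n).measurable (hκ n), hb⟩
  have bV := hS.bddV hκs
  have bV' := hS.bddV hκ'
  have bT := hS.bddT hκs
  have bT' := hS.bddT hκ'
  obtain ⟨C, hC0, hC⟩ := bY.pos
  have b3 : Bdd (fun n ω => (S.Ta κ' n ω - S.Ta κ n ω) * Y n ω) := (bT'.sub bT).mul bY
  have b4 : Bdd (fun n ω => (S.Va κ' n ω - S.Va κ n ω) ^ 2 * Y n ω) := by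
    have : Bdd (fun n ω => ((S.Va κ' n ω - S.Va κ n ω) * (S.Va κ' n ω - S.Va κ n ω)) * Y n ω) :=
      ((bV'.sub bV).mul (bV'.sub bV)).mul bY
    simpa only [sq] using this
  have e1 := limsq (U := U) hS hM hU hκ hκ' hle hY hb
  have e2 : LE P U (fun n ω => (S.Ta κ' n ω - S.Ta κ n ω) * Y n ω) ≤ h * LE P U Y := by
    rw [← LE_const_mul _ bY]
    refine LE_mono_small b3 (bY.const_mul h) (e := fun n => |e n| * C) ?_ fun n ω => ?_
    · have := he.abs.mul_const C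
      simpa using this
    · have h1 := hT n ω
      have h2 := hY0 n ω
      have h3 : Y n ω ≤ C := (le_abs_self _).trans (hC n ω)
      have h4 := le_abs_self (e n)
      have h5 := abs_nonneg (e n)
      nlinarith [mul_le_mul_of_nonneg_right h1 h2, mul_le_mul_of_nonneg_left h3 h5,
        mul_le_mul_of_nonneg_right h4 h2]
  have e3 : ε ^ 2 * LE P U Z ≤ LE P U (fun n ω => (S.Va κ' n ω - S.Va κ n ω) ^ 2 * Y n ω) := by
    rw [← LE_const_mul _ hZ]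
    refine LE_mono (hZ.const_mul _) b4 fun n ω => ?_
    rcases hZY n ω with h1 | ⟨h1, h2⟩
    · have h3 := mul_nonneg (sq_nonneg (S.Va κ' n ω - S.Va κ n ω)) (hY0 n ω)
      have h4 : ε ^ 2 * Z n ω ≤ 0 := mul_nonpos_of_nonneg_of_nonpos (sq_nonneg ε) h1
      linarith
    · have h3 : ε ^ 2 ≤ (S.Va κ' n ω - S.Va κ n ω) ^ 2 := by
        rw [← sq_abs (S.Va κ' n ω - S.Va κ n ω)]
        exact pow_le_pow_left₀ hε.le h2 2
      have h4 := hY0 n ω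
      nlinarith [mul_le_mul_of_nonneg_right h3 h4, mul_le_mul_of_nonneg_left h1 (sq_nonneg ε)]
  have hε2 : 0 < ε ^ 2 := by positivity
  rw [div_mul_eq_mul_div, le_div_iff₀ hε2]
  nlinarith [e1, e2, e3]

end Sys

end Vale.Agent.P153.M1
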