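import Vale.Agent.P153.R2.M1.Fdd

/-!
# P153, block M1: convergence of the finite dimensional characteristic functions
-/

set_option linter.unusedSectionVars false
set_option linter.unusedVariables false

namespace Vale.Agent.P153.M1

open MeasureTheory Filter Topology Set Complex

theorem cexp_sub_le (a b : ℝ) : ‖cexp ((a : ℂ) * I) - cexp ((b : ℂ) * I)‖ ≤ |a - b| := by
  have h1 : cexp ((a : ℂ) * I) - cexp ((b : ℂ) * I) =
      cexp ((b : ℂ) * I) * (cexp (I * ((a - b : ℝ) : ℂ)) - 1) := by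
    rw [mul_sub, ← Complex.exp_add, mul_one]
    congr 2
    push_cast
    ring
  rw [h1, norm_mul, norm_exp_ofReal_mul_I, one_mul]
  have := Real.norm_exp_I_mul_ofReal_sub_one_le (x := a - b)
  rwa [Real.norm_eq_abs] at this

namespace Sys

variable {Ω : ℕ → Type*} [mΩ : ∀ n, MeasurableSpace (Ω n)] {S : Sys Ω}
  {P : ∀ n, Measure (Ω n)} [∀ n, IsProbabilityMeasure (P n)] {U : Ultrafilter ℕ}
  {κ κ' κ'' : ∀ n, Ω n → ℕ} {T R : ℝ}

/-- A linear combination of increments at the indices of deterministic times. -/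
noncomputable def lc (hS : S.Ok) (T R : ℝ) (s l : ℕ → ℝ) (m : ℕ) (n : ℕ) (ω : Ω n) : ℝ :=
  ∑ j ∈ Finset.range m, l j * (S.Va (sx hS T R (s (j + 1))) n ω - S.Va (sx hS T R (s j)) n ω)

/-- The variance of the same linear combination of increments of `2 B`, divided by two. -/
noncomputable def vl (s l : ℕ → ℝ) (m : ℕ) : ℝ :=
  ∑ j ∈ Finset.range m, 2 * l j ^ 2 * (s (j + 1) - s j)

theorem lc_past (hS : S.Ok) {s : ℕ → ℝ} (hs : Monotone s) (l : ℕ → ℝ) (m n : ℕ) :
    Past (S.F n) (sx hS T R (s m) n) (lc hS T R s l m n) := by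
  induction m with
  | zero =>
    have : lc hS T R s l 0 n = fun _ => (0 : ℝ) := by funext ω; simp [lc]
    rw [this]
    exact Past.const (sx_stop hS T R _ n) 0
  | succ m ih =>
    have hle : ∀ ω, sx hS T R (s m) n ω ≤ sx hS T R (s (m + 1)) n ω :=
      sx_mono hS (hs (Nat.le_succ m)) n
    have h1 := ih.mono (sx_stop hS T R _ n) (sx_stop hS T R _ n) hle
    have h2 := (hS.pastV (sx_stop hS T R (s m)) n).mono (sx_stop hS T R _ n)
      (sx_stop hS T R _ n) hle
    have h3 : Past (S.F n) (sx hS T R (s (m + 1)) n)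
        (fun ω => l m * (S.Va (sx hS T R (s (m + 1))) n ω - S.Va (sx hS T R (s m)) n ω)) :=
      (hS.pastV (sx_stop hS T R (s (m + 1))) n).comp₂ h2 (sx_stop hS T R _ n)
        (f := fun a b => l m * (a - b)) (by fun_prop)
    have h4 := h1.comp₂ h3 (sx_stop hS T R _ n) (f := fun a b => a + b) (by fun_prop)
    have : lc hS T R s l (m + 1) n = fun ω => lc hS T R s l m n ω +
        l m * (S.Va (sx hS T R (s (m + 1))) n ω - S.Va (sx hS T R (s m)) n ω) := by
      funext ω
      simp only [lc, Finset.sum_range_succ]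
    rw [this]
    exact h4

theorem multi (hS : S.Ok) (hM : S.AM P) (hU : (U : Filter ℕ) ≤ atTop) {s : ℕ → ℝ}
    (hs : Monotone s) (h0 : 0 ≤ s 0) (l : ℕ → ℝ) (m : ℕ) (hT : s m ≤ T) :
    ‖LE P U (fun n ω => cexp (((lc hS T R s l m n ω : ℝ) : ℂ) * I)) -
      ((Real.exp (-(vl s l m)) : ℝ) : ℂ)‖ ≤ vl s l m * LE P U (outR hS T R) := by
  induction m with
  | zero =>
    have e1 : (fun (n : ℕ) (ω : Ω n) => cexp (((lc hS T R s l 0 n ω : ℝ) : ℂ) * I)) =
        fun _ _ => 1 := by
      funext n ω; simp [lc]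
    rw [e1, LE_const]
    simp [vl]
  | succ m ih =>
    have hsm : s m ≤ s (m + 1) := hs (Nat.le_succ m)
    have h1 := ih (hsm.trans hT)
    have hsm0 : 0 ≤ s m := h0.trans (hs (Nat.zero_le m))
    have pZ : ∀ n, Past (S.F n) (sx hS T R (s m) n)
        (fun ω => cexp (((lc hS T R s l m n ω : ℝ) : ℂ) * I)) := fun n =>
      (lc_past hS hs l m n).comp (sx_stop hS T R _ n) (f := fun a => cexp ((a : ℂ) * I))
        (by fun_prop)
    have h2 := incr_char (U := U) (P := P) (R := R) hS hM hU hsm0 hsm hT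
      (Z := fun n ω => cexp (((lc hS T R s l m n ω : ℝ) : ℂ) * I)) pZ
      (fun n ω => (norm_cexp_real _).le) (l m)
    have e1 : (fun (n : ℕ) (ω : Ω n) => cexp (((lc hS T R s l (m + 1) n ω : ℝ) : ℂ) * I)) =
        fun n ω => cexp (((l m * (S.Va (sx hS T R (s (m + 1))) n ω -
          S.Va (sx hS T R (s m)) n ω) : ℝ) : ℂ) * I) *
          cexp (((lc hS T R s l m n ω : ℝ) : ℂ) * I) := by
      funext n ω
      rw [← Complex.exp_add]
      congr 1
      simp only [lc, Finset.sum_range_succ]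
      push_cast
      ring
    rw [e1]
    set A := LE P U (fun n ω => cexp (((l m * (S.Va (sx hS T R (s (m + 1))) n ω -
          S.Va (sx hS T R (s m)) n ω) : ℝ) : ℂ) * I) *
          cexp (((lc hS T R s l m n ω : ℝ) : ℂ) * I)) with hA
    set B := LE P U (fun n ω => cexp (((lc hS T R s l m n ω : ℝ) : ℂ) * I)) with hB
    set v := 2 * l m ^ 2 * (s (m + 1) - s m) with hv
    have hv0 : 0 ≤ v := mul_nonneg (by positivity) (sub_nonneg.2 hsm)
    have e2 : vl s l (m + 1) = vl s l m + v := by simp only [vl, Finset.sum_range_succ, hv]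
    have e3 : A - ((Real.exp (-(vl s l (m + 1))) : ℝ) : ℂ) =
        (A - ((Real.exp (-v) : ℝ) : ℂ) * B) +
        ((Real.exp (-v) : ℝ) : ℂ) * (B - ((Real.exp (-(vl s l m)) : ℝ) : ℂ)) := by
      have : Real.exp (-(vl s l (m + 1))) = Real.exp (-v) * Real.exp (-(vl s l m)) := by
        rw [e2, ← Real.exp_add]; congr 1; ring
      rw [this]
      push_cast
      ring
    rw [e3]
    refine (norm_add_le _ _).trans ?_
    rw [norm_mul, Complex.norm_real, Real.norm_eq_abs, abs_of_pos (Real.exp_pos _), e2]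
    have h3 : Real.exp (-v) ≤ 1 := Real.exp_le_one_iff.2 (by linarith)
    have h4 : Real.exp (-v) * ‖B - ((Real.exp (-(vl s l m)) : ℝ) : ℂ)‖ ≤
        1 * ‖B - ((Real.exp (-(vl s l m)) : ℝ) : ℂ)‖ :=
      mul_le_mul_of_nonneg_right h3 (norm_nonneg _)
    rw [one_mul] at h4
    have h5 : ‖A - ((Real.exp (-v) : ℝ) : ℂ) * B‖ ≤ v * LE P U (outR hS T R) := h2
    rw [add_mul]
    linarith

/-- A linear combination of increments of `W`. -/
noncomputable def lw (S : Sys Ω) (s l : ℕ → ℝ) (m : ℕ) (n : ℕ) (ω : Ω n) : ℝ :=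
  ∑ j ∈ Finset.range m, l j * (S.W n ω (s (j + 1)) - S.W n ω (s j))

theorem lw_meas (hS : S.Ok) (s l : ℕ → ℝ) (m n : ℕ) : Measurable (lw S s l m n) :=
  Finset.measurable_sum _ fun j _ =>
    ((hS.measW n (s (j + 1))).sub (hS.measW n (s j))).const_mul (l j)

theorem bdd_cexp {X : ∀ n, Ω n → ℝ} (hX : ∀ n, Measurable (X n)) :
    Bdd (fun n ω => cexp (((X n ω : ℝ) : ℂ) * I)) :=
  ⟨fun n => by have := hX n; fun_prop, 1, fun n ω => (norm_cexp_real _).le⟩

theorem multiW (hS : S.Ok) (hM : S.AM P) (hU : (U : Filter ℕ) ≤ atTop) {s : ℕ → ℝ}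
    (hs : Monotone s) (h0 : 0 ≤ s 0) (l : ℕ → ℝ) (m : ℕ) :
    LE P U (fun n ω => cexp (((lw S s l m n ω : ℝ) : ℂ) * I)) =
      ((Real.exp (-(vl s l m)) : ℝ) : ℂ) := by
  set T := s m with hTdef
  have hT0 : 0 ≤ T := h0.trans (hs (Nat.zero_le m))
  have hv0 : 0 ≤ vl s l m := Finset.sum_nonneg fun j _ =>
    mul_nonneg (by positivity) (sub_nonneg.2 (hs (Nat.le_succ j)))
  have key : ∀ R : ℝ, 0 < R → ‖LE P U (fun n ω => cexp (((lw S s l m n ω : ℝ) : ℂ) * I)) -
      ((Real.exp (-(vl s l m)) : ℝ) : ℂ)‖ ≤ (2 + vl s l m) * (4 * T / R ^ 2) := by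
    intro R hR
    obtain ⟨e, he0, he, -, -, h3⟩ := time_est hS T R
    have hm := multi (U := U) (P := P) (R := R) (T := T) hS hM hU hs h0 l m le_rfl
    have hp := outR_prob (U := U) (P := P) hS hM hU hT0 hR
    have b1 := bdd_cexp (X := lw S s l m) (lw_meas hS s l m)
    have b2 := bdd_cexp (X := lc hS T R s l m) fun n =>
      (lc_past hS hs l m n).measurable (sx_stop hS T R _ n)
    have h4 : ‖LE P U (fun n ω => cexp (((lw S s l m n ω : ℝ) : ℂ) * I)) -
        LE P U (fun n ω => cexp (((lc hS T R s l m n ω : ℝ) : ℂ) * I))‖ ≤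
        2 * LE P U (outR hS T R) := by
      rw [← LE_sub b1 b2, ← LE_const_mul _ (outR_bdd hS T R)]
      refine (norm_LE_le (b1.sub b2)).trans ?_
      refine LE_mono_small (b1.sub b2).norm ((outR_bdd hS T R).const_mul 2)
        (e := fun n => (∑ j ∈ Finset.range m, |l j|) * (2 * e n)) ?_ fun n ω => ?_
      · have := (he.const_mul 2).const_mul (∑ j ∈ Finset.range m, |l j|)
        rw [mul_zero, mul_zero] at this
        exact this.mono_left hU
      · have hee : 0 ≤ (∑ j ∈ Finset.range m, |l j|) * (2 * e n) :=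
          mul_nonneg (Finset.sum_nonneg fun j _ => abs_nonneg _) (by have := he0 n; linarith)
        by_cases h5 : outR hS T R n ω = 1
        · rw [h5]
          have h6 : ‖cexp (((lw S s l m n ω : ℝ) : ℂ) * I) -
              cexp (((lc hS T R s l m n ω : ℝ) : ℂ) * I)‖ ≤ 2 := by
            refine (norm_sub_le _ _).trans ?_
            rw [norm_cexp_real, norm_cexp_real]
            norm_num
          linarith
        · have h6 : outR hS T R n ω = 0 := by
            unfold outR at h5 ⊢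
            split_ifs with h5'
            · rw [if_pos h5'] at h5; exact absurd rfl h5
            · rfl
          rw [h6, mul_zero, zero_add]
          refine (cexp_sub_le _ _).trans ?_
          unfold lw lc
          rw [← Finset.sum_sub_distrib]
          refine (Finset.abs_sum_le_sum_abs _ _).trans ?_
          rw [Finset.sum_mul]
          refine Finset.sum_le_sum fun j hj => ?_
          have hjm : j + 1 ≤ m := Finset.mem_range.1 hj
          have e1 : l j * (S.W n ω (s (j + 1)) - S.W n ω (s j)) -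
              l j * (S.Va (sx hS T R (s (j + 1))) n ω - S.Va (sx hS T R (s j)) n ω) =
              l j * ((S.W n ω (s (j + 1)) - S.Va (sx hS T R (s (j + 1))) n ω) -
                (S.W n ω (s j) - S.Va (sx hS T R (s j)) n ω)) := by ring
          rw [e1, abs_mul]
          refine mul_le_mul_of_nonneg_left ?_ (abs_nonneg _)
          have h7 := h3 n ω (s (j + 1)) (h0.trans (hs (Nat.zero_le _))) (hs hjm) h5
          have h8 := h3 n ω (s j) (h0.trans (hs (Nat.zero_le _))) (hs (by omega)) h5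
          exact (abs_sub _ _).trans (by linarith)
    have h5 : LE P U (fun n ω => cexp (((lw S s l m n ω : ℝ) : ℂ) * I)) -
        ((Real.exp (-(vl s l m)) : ℝ) : ℂ) =
        (LE P U (fun n ω => cexp (((lw S s l m n ω : ℝ) : ℂ) * I)) -
        LE P U (fun n ω => cexp (((lc hS T R s l m n ω : ℝ) : ℂ) * I))) +
        (LE P U (fun n ω => cexp (((lc hS T R s l m n ω : ℝ) : ℂ) * I)) -
        ((Real.exp (-(vl s l m)) : ℝ) : ℂ)) := by ring
    rw [h5]
    refine (norm_add_le _ _).trans ?_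
    have h6 : (2 + vl s l m) * LE P U (outR hS T R) ≤ (2 + vl s l m) * (4 * T / R ^ 2) :=
      mul_le_mul_of_nonneg_left hp (by linarith)
    linarith
  have h1 : ‖LE P U (fun n ω => cexp (((lw S s l m n ω : ℝ) : ℂ) * I)) -
      ((Real.exp (-(vl s l m)) : ℝ) : ℂ)‖ ≤ 0 := by
    have t1 : Tendsto (fun R : ℝ => (2 + vl s l m) * (4 * T / R ^ 2)) atTop (𝓝 0) := by
      have h2 : Tendsto (fun R : ℝ => (R ^ 2)⁻¹) atTop (𝓝 0) :=
        tendsto_inv_atTop_zero.comp (tendsto_pow_atTop (by norm_num))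
      have h3 := (h2.const_mul (4 * T)).const_mul (2 + vl s l m)
      simp only [mul_zero] at h3
      exact h3
    refine ge_of_tendsto t1 ?_
    filter_upwards [eventually_gt_atTop 0] with R hR
    exact key R hR
  exact sub_eq_zero.1 (norm_le_zero_iff.1 h1)

/-- **Convergence of the characteristic functions of the increments to those of `2 B`.** -/
theorem tendsto_charFun (hS : S.Ok) (hM : S.AM P) {s : ℕ → ℝ}
    (hs : Monotone s) (h0 : 0 ≤ s 0) (l : ℕ → ℝ) (m : ℕ) :
    Tendsto (fun n => ∫ ω, cexp (((∑ j ∈ Finset.range m, l j * (S.W n ω (s (j + 1)) -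
      S.W n ω (s j)) : ℝ) : ℂ) * I) ∂(P n)) atTop
      (𝓝 ((Real.exp (-(∑ j ∈ Finset.range m, 2 * l j ^ 2 * (s (j + 1) - s j))) : ℝ) : ℂ)) := by
  rw [tendsto_iff_ultrafilter]
  intro g hg
  have h1 := tendsto_LE (P := P) (U := g) (bdd_cexp (X := lw S s l m) (lw_meas hS s l m))
  rw [multiW hS hM hg hs h0 l m] at h1
  exact h1

end Sys

end Vale.Agent.P153.M1
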