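import Vale.Agent.P153.R2.M1.Multi

/-!
# P153, block M1: modulus of continuity of the driving functions
-/

set_option linter.unusedSectionVars false
set_option linter.unusedVariables false

namespace Vale.Agent.P153.M1

open MeasureTheory Filter Topology Set

namespace Sys

variable {Ω : ℕ → Type*} [mΩ : ∀ n, MeasurableSpace (Ω n)] {S : Sys Ω}
  {P : ∀ n, Measure (Ω n)} [∀ n, IsProbabilityMeasure (P n)] {U : Ultrafilter ℕ}
  {κ κ' κ'' : ∀ n, Ω n → ℕ} {T R : ℝ}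

/-- Oscillation over one time interval. -/
theorem osc_int (hS : S.Ok) (hM : S.AM P) (hU : (U : Filter ℕ) ≤ atTop) {s t : ℝ}
    (hs : 0 ≤ s) (hst : s ≤ t) (htT : t ≤ T) {ε : ℝ} (hε : 0 < ε) :
    ∃ X : ∀ n, Ω n → ℝ, Bdd X ∧ (∀ n ω, 0 ≤ X n ω ∧ X n ω ≤ 1) ∧
      LE P U X ≤ (4 * (t - s) / ε ^ 2) ^ 2 ∧
      ∀ᶠ n in (atTop : Filter ℕ), ∀ ω, outR hS T R n ω ≠ 1 → X n ω ≠ 1 →
        ∀ u, s ≤ u → u ≤ t → |S.W n ω u - S.W n ω s| ≤ 6 * ε := by
  obtain ⟨e, he0, he, h1, h2, h3⟩ := time_est hS T R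
  have hκ := sx_stop hS T R s
  have hκ' := sx_St hS T R t
  have hle : ∀ n ω, sx hS T R s n ω ≤ sx hS T R t n ω := sx_mono hS hst
  have hT' : ∀ n ω, S.Ta (sx hS T R t) n ω - S.Ta (sx hS T R s) n ω ≤ (t - s) + e n := by
    intro n ω
    rcases le_total (tix hS s n ω) (ex hS T R n ω) with h7 | h7
    · have h8 : sx hS T R s n ω = tix hS s n ω := min_eq_left h7
      have h9 : s ≤ S.Ta (sx hS T R s) n ω := by
        change s ≤ S.τ n (sx hS T R s n ω) ω
        rw [h8]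
        exact Ta_tix_ge hS n ω
      have h10 := h1 n ω t (hs.trans hst)
      linarith
    · have h8 : sx hS T R s n ω = ex hS T R n ω := min_eq_right h7
      have h9 : sx hS T R t n ω = ex hS T R n ω :=
        min_eq_right (h7.trans (tix_mono hS hst n ω))
      have : S.Ta (sx hS T R t) n ω = S.Ta (sx hS T R s) n ω := by
        change S.τ n (sx hS T R t n ω) ω = S.τ n (sx hS T R s n ω) ω
        rw [h8, h9]
      rw [this, sub_self]
      have := he0 n
      linarith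
  obtain ⟨X, bX, X01, hX, hX2⟩ := tail2 (U := U) (P := P) hS hM hU hκ hκ' hle
    (sub_nonneg.2 hst) (he.mono_left hU) hT' hε
  refine ⟨X, bX, X01, hX2, ?_⟩
  filter_upwards [hX, he.eventually (gt_mem_nhds hε)] with n hn hen ω ho hx u hsu hut
  have h4 : ∀ j, sx hS T R s n ω ≤ j → j ≤ sx hS T R t n ω →
      |S.V n j ω - S.Va (sx hS T R s) n ω| < 4 * ε := by
    intro j hj1 hj2
    by_contra hc
    exact hx (hn ω ⟨j, hj1, hj2, not_lt.1 hc⟩)
  have h5 := h4 (sx hS T R u n ω) (sx_mono hS hsu n ω) (sx_mono hS hut n ω)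
  have h6 := h3 n ω u (hs.trans hsu) (hut.trans htT) ho
  have h7 := h3 n ω s hs (hst.trans htT) ho
  have h8 : S.W n ω u - S.W n ω s = (S.W n ω u - S.Va (sx hS T R u) n ω) +
      ((S.Va (sx hS T R u) n ω - S.Va (sx hS T R s) n ω) -
        (S.W n ω s - S.Va (sx hS T R s) n ω)) := by ring
  have h9 : |S.Va (sx hS T R u) n ω - S.Va (sx hS T R s) n ω| < 4 * ε := h5
  rw [h8]
  refine (abs_add_le _ _).trans ?_
  have h10 := abs_sub (S.Va (sx hS T R u) n ω - S.Va (sx hS T R s) n ω)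
    (S.W n ω s - S.Va (sx hS T R s) n ω)
  linarith

theorem LE_sum {ι : Type*} (A : Finset ι) {X : ι → ∀ n, Ω n → ℝ} (hX : ∀ i, Bdd (X i)) :
    Bdd (fun n ω => ∑ i ∈ A, X i n ω) ∧
      LE P U (fun n ω => ∑ i ∈ A, X i n ω) = ∑ i ∈ A, LE P U (X i) := by
  classical
  induction A using Finset.induction_on with
  | empty =>
    constructor
    · simpa using (Bdd.const (0 : ℝ) : Bdd (fun (n : ℕ) (_ : Ω n) => (0 : ℝ)))
    · simp only [Finset.sum_empty]
      exact LE_const 0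
  | insert a A ha ih =>
    constructor
    · simp only [Finset.sum_insert ha]
      exact (hX a).add ih.1
    · simp only [Finset.sum_insert ha]
      rw [LE_add (hX a) ih.1, ih.2]

/-- **Tightness: modulus of continuity of the driving functions.** -/
theorem modulus (hS : S.Ok) (hM : S.AM P) {T : ℝ} (hT : 0 ≤ T) {ε η : ℝ} (hε : 0 < ε)
    (hη : 0 < η) : ∃ θ : ℝ, 0 < θ ∧ ∀ᶠ n in (atTop : Filter ℕ),
      (P n).real {ω | ∃ s t, 0 ≤ s ∧ s ≤ t ∧ t ≤ T ∧ t - s ≤ θ ∧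
        ε < |S.W n ω t - S.W n ω s|} ≤ η := by
  set T' := T + 1 with hT'
  have hT'0 : 0 ≤ T' := by linarith
  set ε' := ε / 18 with hε'
  have hε'0 : 0 < ε' := by positivity
  obtain ⟨R, hR0, hR⟩ : ∃ R : ℝ, 0 < R ∧ 4 * T' / R ^ 2 ≤ η / 4 := by
    refine ⟨Real.sqrt (16 * T' / η + 1), by positivity, ?_⟩
    rw [Real.sq_sqrt (by positivity), div_le_iff₀ (by positivity)]
    have : η / 4 * (16 * T' / η + 1) = 4 * T' + η / 4 := by field_simp; ring
    rw [this]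
    linarith
  -- the mesh
  obtain ⟨h, hh0, hh2, hhb⟩ : ∃ h : ℝ, 0 < h ∧ h ≤ 1 / 2 ∧
      (T / h + 3) * (4 * h / ε' ^ 2) ^ 2 ≤ η / 4 := by
    have t1 : Tendsto (fun h : ℝ => (T + 3 * h) * (16 * h) / ε' ^ 4) (𝓝[>] 0)
        (𝓝 ((T + 3 * 0) * (16 * 0) / ε' ^ 4)) := by
      have : Continuous (fun h : ℝ => (T + 3 * h) * (16 * h) / ε' ^ 4) := by fun_prop
      exact (this.tendsto 0).mono_left nhdsWithin_le_nhds
    rw [mul_zero, mul_zero, mul_zero, zero_div] at t1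
    have h1 := t1.eventually (gt_mem_nhds (show (0 : ℝ) < η / 4 by positivity))
    have h2 : ∀ᶠ h : ℝ in 𝓝[>] 0, h ∈ Ioo (0 : ℝ) (1 / 2) :=
      Ioo_mem_nhdsGT (by norm_num)
    obtain ⟨h, h3, h4⟩ := (h1.and h2).exists
    refine ⟨h, h4.1, h4.2.le, ?_⟩
    have h5 : (T / h + 3) * (4 * h / ε' ^ 2) ^ 2 = (T + 3 * h) * (16 * h) / ε' ^ 4 := by
      have := h4.1.ne'
      field_simp
      ring
    rw [h5]
    exact h3.le
  set N : ℕ := ⌊T / h⌋₊ with hN
  have hNle : (N : ℝ) ≤ T / h := Nat.floor_le (by positivity)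
  refine ⟨h, hh0, ?_⟩
  by_contra hcon
  obtain ⟨U, hU, hUb⟩ : ∃ U : Ultrafilter ℕ, (U : Filter ℕ) ≤ atTop ∧ ∀ᶠ n in (U : Filter ℕ),
      ¬ ((P n).real {ω | ∃ s t, 0 ≤ s ∧ s ≤ t ∧ t ≤ T ∧ t - s ≤ h ∧
        ε < |S.W n ω t - S.W n ω s|} ≤ η) := by
    by_contra hno
    apply hcon
    rw [Filter.Eventually, Filter.mem_iff_ultrafilter]
    intro g hg
    by_contra hc
    exact hno ⟨g, hg, Ultrafilter.compl_mem_iff_notMem.2 hc⟩
  have hNT : ∀ j : ℕ, j ≤ N + 1 → ((j : ℝ) + 1) * h ≤ T' := by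
    intro j hj
    have h1 : (j : ℝ) ≤ N + 1 := by exact_mod_cast hj
    have h2 : (N : ℝ) * h ≤ T := by
      have := mul_le_mul_of_nonneg_right hNle hh0.le
      rwa [div_mul_cancel₀ _ hh0.ne'] at this
    nlinarith
  have hX : ∀ j : ℕ, ∃ X : ∀ n, Ω n → ℝ, Bdd X ∧ (∀ n ω, 0 ≤ X n ω ∧ X n ω ≤ 1) ∧
      LE P U X ≤ (4 * h / ε' ^ 2) ^ 2 ∧
      (j ≤ N + 1 → ∀ᶠ n in (atTop : Filter ℕ), ∀ ω, outR hS T' R n ω ≠ 1 → X n ω ≠ 1 →
        ∀ u, j * h ≤ u → u ≤ (j + 1) * h → |S.W n ω u - S.W n ω (j * h)| ≤ 6 * ε') := by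
    intro j
    by_cases hj : j ≤ N + 1
    · obtain ⟨X, h1, h2, h3, h4⟩ := osc_int (U := U) (P := P) (R := R) hS hM hU
        (s := j * h) (t := (j + 1) * h) (T := T') (by positivity) (by nlinarith) (hNT j hj) hε'0
      refine ⟨X, h1, h2, ?_, fun _ => h4⟩
      have : ((j : ℝ) + 1) * h - j * h = h := by ring
      rwa [this] at h3
    · refine ⟨fun _ _ => 0, Bdd.const 0, fun _ _ => ⟨le_rfl, zero_le_one⟩, ?_, fun h => absurd h hj⟩
      rw [LE_const]
      positivity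
  choose X bX X01 hXL hXe using hX
  set Y : ∀ n, Ω n → ℝ := fun n ω => outR hS T' R n ω + ∑ j ∈ Finset.range (N + 2), X j n ω
    with hY
  have hs := LE_sum (P := P) (U := U) (Finset.range (N + 2)) bX
  have bY : Bdd Y := (outR_bdd hS T' R).add hs.1
  have hYL : LE P U Y ≤ η / 2 := by
    have h1 : LE P U Y = LE P U (outR hS T' R) + ∑ j ∈ Finset.range (N + 2), LE P U (X j) := by
      rw [← hs.2]
      exact LE_add (outR_bdd hS T' R) hs.1
    have h2 := outR_prob (U := U) (P := P) hS hM hU hT'0 hR0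
    have h3 : ∑ j ∈ Finset.range (N + 2), LE P U (X j) ≤
        ∑ j ∈ Finset.range (N + 2), (4 * h / ε' ^ 2) ^ 2 := Finset.sum_le_sum fun j _ => hXL j
    rw [Finset.sum_const, Finset.card_range, nsmul_eq_mul] at h3
    have h4 : ((N + 2 : ℕ) : ℝ) * (4 * h / ε' ^ 2) ^ 2 ≤ (T / h + 3) * (4 * h / ε' ^ 2) ^ 2 := by
      refine mul_le_mul_of_nonneg_right ?_ (sq_nonneg _)
      push_cast
      linarith
    linarith
  have hev : ∀ᶠ n in (atTop : Filter ℕ), ∀ j ∈ Finset.range (N + 2), ∀ ω,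
      outR hS T' R n ω ≠ 1 → X j n ω ≠ 1 →
        ∀ u, j * h ≤ u → u ≤ (j + 1) * h → |S.W n ω u - S.W n ω (j * h)| ≤ 6 * ε' := by
    rw [Filter.eventually_all_finset]
    intro j hj
    exact hXe j (by have := Finset.mem_range.1 hj; omega)
  have hlim := tendsto_LE (P := P) (U := U) bY
  have hlt : ∀ᶠ n in (U : Filter ℕ), ∫ ω, Y n ω ∂(P n) < η :=
    hlim.eventually (gt_mem_nhds (lt_of_le_of_lt hYL (by linarith)))
  obtain ⟨n, ⟨hn1, hn2⟩, hn3⟩ := ((hlt.and (hU hev)).and hUb).exists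
  apply hn3
  have hY0 : ∀ ω, 0 ≤ Y n ω := fun ω =>
    add_nonneg (outR_nonneg _ _ _ _ _) (Finset.sum_nonneg fun j _ => (X01 j n ω).1)
  have hmk := mul_meas_ge_le_integral_of_nonneg (μ := P n) (f := Y n)
    (Eventually.of_forall hY0) (bY.integrable n) 1
  rw [one_mul] at hmk
  refine (measureReal_mono (fun ω hω => ?_)).trans (hmk.trans hn1.le)
  obtain ⟨s, t, hs0, hst, htT, hth, hbig⟩ := hω
  change 1 ≤ Y n ω
  by_contra hc
  have hc' : Y n ω < 1 := not_le.1 hc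
  have ho : outR hS T' R n ω ≠ 1 := by
    intro h1
    have h2 : 0 ≤ ∑ j ∈ Finset.range (N + 2), X j n ω := Finset.sum_nonneg fun j _ => (X01 j n ω).1
    have : Y n ω = outR hS T' R n ω + ∑ j ∈ Finset.range (N + 2), X j n ω := rfl
    rw [this, h1] at hc'
    linarith
  have hx : ∀ j ∈ Finset.range (N + 2), X j n ω ≠ 1 := by
    intro j hj h1
    have h2 : X j n ω ≤ ∑ j ∈ Finset.range (N + 2), X j n ω :=
      Finset.single_le_sum (f := fun j => X j n ω) (fun j _ => (X01 j n ω).1) hj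
    have : Y n ω = outR hS T' R n ω + ∑ j ∈ Finset.range (N + 2), X j n ω := rfl
    have h3 := outR_nonneg hS T' R n ω
    rw [this] at hc'
    linarith
  -- locate `s`
  set j : ℕ := ⌊s / h⌋₊ with hj
  have hsT : s ≤ T := hst.trans htT
  have hjN : j ≤ N := Nat.floor_le_floor (div_le_div_of_nonneg_right hsT hh0.le)
  have hj1 : (j : ℝ) * h ≤ s := by
    have := mul_le_mul_of_nonneg_right (Nat.floor_le (show 0 ≤ s / h by positivity)) hh0.le
    rwa [div_mul_cancel₀ _ hh0.ne'] at this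
  have hj2 : s ≤ ((j : ℝ) + 1) * h := by
    have := mul_le_mul_of_nonneg_right (Nat.lt_floor_add_one (s / h)).le hh0.le
    rwa [div_mul_cancel₀ _ hh0.ne'] at this
  have A1 := hn2 j (Finset.mem_range.2 (by omega)) ω ho (hx j (Finset.mem_range.2 (by omega)))
  have A2 := hn2 (j + 1) (Finset.mem_range.2 (by omega)) ω ho
    (hx (j + 1) (Finset.mem_range.2 (by omega)))
  have B1 := A1 s hj1 hj2
  have key : |S.W n ω t - S.W n ω s| ≤ 18 * ε' := by
    rcases le_or_gt t (((j : ℝ) + 1) * h) with h1 | h1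
    · have B2 := A1 t (hj1.trans hst) h1
      have e1 : S.W n ω t - S.W n ω s = (S.W n ω t - S.W n ω (j * h)) -
        (S.W n ω s - S.W n ω (j * h)) := by ring
      rw [e1]
      have := abs_sub (S.W n ω t - S.W n ω (j * h)) (S.W n ω s - S.W n ω (j * h))
      linarith
    · have B2 := A1 (((j : ℝ) + 1) * h) (hj1.trans hj2) le_rfl
      have B3 := A2 t (by push_cast; exact h1.le) (by push_cast; linarith)
      push_cast at B3
      have e1 : S.W n ω t - S.W n ω s = (S.W n ω t - S.W n ω ((j + 1) * h)) +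
        ((S.W n ω ((j + 1) * h) - S.W n ω (j * h)) - (S.W n ω s - S.W n ω (j * h))) := by ring
      rw [e1]
      have h2 := abs_add_le (S.W n ω t - S.W n ω ((j + 1) * h))
        ((S.W n ω ((j + 1) * h) - S.W n ω (j * h)) - (S.W n ω s - S.W n ω (j * h)))
      have h3 := abs_sub (S.W n ω ((j + 1) * h) - S.W n ω (j * h))
        (S.W n ω s - S.W n ω (j * h))
      linarith
  have : 18 * ε' = ε := by rw [hε']; ring
  linarith

end Sys

end Vale.Agent.P153.M1
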