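import Vale.Agent.P153.R2.M1.Loew
import Vale.Agent.P153.R2.M1.Tight

/-!
# P153, block M1: from the observable to the approximate martingale problem
-/

set_option linter.unusedSectionVars false
set_option linter.unusedVariables false

namespace Vale.Agent.P153.M1

open MeasureTheory Filter Topology Set Complex Vale.Agent.P164

namespace Sys

variable {Ω : ℕ → Type*} [mΩ : ∀ n, MeasurableSpace (Ω n)] (S : Sys Ω)

/-- The observable at a stopping index: the argument of the (centred) Loewner flow. -/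
noncomputable def Ma (z : ℂ) (κ : ∀ n, Ω n → ℕ) (n : ℕ) (ω : Ω n) : ℝ :=
  arg (flow (S.W n ω) (S.Ta κ n ω) z)

/-- The observable is an approximate martingale: for all points `z` far above the real line there
are points `zn → z` at which the arguments of the Loewner flow at stopping indices before the exit
from `[0, T] × [-R, R]` have asymptotically vanishing conditional increments. -/
structure Obs (P : ∀ n, Measure (Ω n)) : Prop where
  cont : ∀ n ω, ContinuousOn (S.W n ω) (Ici 0)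
  meas : ∀ n k z, Measurable fun ω => arg (flow (S.W n ω) (S.τ n k ω) z)
  mart : ∀ (T R : ℝ) (z : ℂ), 0 ≤ T → 0 < R → 0 < z.im → 16 * (T + 1) ≤ z.im ^ 2 →
    ∃ zn : ℕ → ℂ, Tendsto zn atTop (𝓝 z) ∧ ∀ (κ κ' : ∀ n, Ω n → ℕ) (Y : ∀ n, Ω n → ℝ),
      (∀ n, IsStop (S.F n) (κ n)) → S.St T R κ' → (∀ n ω, κ n ω ≤ κ' n ω) →
      (∀ n, Past (S.F n) (κ n) (Y n)) → (∀ n ω, |Y n ω| ≤ 1) →
      Tendsto (fun n => ∫ ω, (S.Ma (zn n) κ' n ω - S.Ma (zn n) κ n ω) * Y n ω ∂(P n)) atTop (𝓝 0)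

variable {S} {P : ∀ n, Measure (Ω n)} [∀ n, IsProbabilityMeasure (P n)]
  {κ κ' : ∀ n, Ω n → ℕ} {T R : ℝ}

theorem Ok.path_bd (hS : S.Ok) (T R : ℝ) : ∃ C, 0 < C ∧ ∀ n ω k, S.Bef T R n ω k →
    (∀ u, 0 ≤ u → u ≤ S.τ n k ω → |S.W n ω u| ≤ C) ∧ S.τ n k ω ≤ C := by
  obtain ⟨e, he0, -, ⟨C, hC⟩, h⟩ := hS.step T R
  obtain ⟨C', hC', h'⟩ := hS.val_bd T R
  have hC0 : 0 ≤ C := (he0 0).trans (hC 0)
  refine ⟨|R| + C + 1 + C', by positivity, fun n ω k hk => ⟨?_, ?_⟩⟩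
  · induction k with
    | zero =>
      intro u hu0 hu1
      rw [hS.zero n ω] at hu1
      have : u = 0 := le_antisymm hu1 hu0
      rw [this, hS.W0 n ω, abs_zero]
      positivity
    | succ k ih =>
      intro u hu0 hu1
      rcases le_total u (S.τ n k ω) with h1 | h1
      · exact ih (hk.mono (Nat.le_succ k)) u hu0 h1
      · obtain ⟨-, -, h2⟩ := h n ω k hk
        have h3 := h2 u ⟨h1, hu1⟩
        have h4 := (hk k (Nat.lt_succ_self k)).2
        have h5 := abs_sub_abs_le_abs_sub (S.W n ω u) (S.W n ω (S.τ n k ω))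
        have h6 := hC n
        have h7 := le_abs_self R
        have h8 : |S.W n ω (S.τ n k ω)| ≤ R := h4
        linarith
  · have h1 := (h' n ω k hk).2
    have h2 := le_abs_self (S.τ n k ω)
    have h3 := abs_nonneg R
    linarith

theorem Ma_meas (hS : S.Ok) (hO : S.Obs P) (hκ : ∀ n, IsStop (S.F n) (κ n)) (z : ℂ) (n : ℕ) :
    Measurable (S.Ma z κ n) := by
  intro s hs
  have : S.Ma z κ n ⁻¹' s = ⋃ k, ({ω | κ n ω = k} ∩
      (fun ω => arg (flow (S.W n ω) (S.τ n k ω) z)) ⁻¹' s) := by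
    ext ω
    simp only [mem_preimage, mem_iUnion, mem_inter_iff, mem_ofPred_eq]
    exact ⟨fun h => ⟨κ n ω, rfl, h⟩, fun ⟨k, h1, h2⟩ => by subst h1; exact h2⟩
  rw [this]
  exact MeasurableSet.iUnion fun k => ((S.F n).le k _ ((hκ n).eq k)).inter (hO.meas n k z hs)

theorem mainE_sub (z z' : ℂ) {w t C : ℝ} (hw : |w| ≤ C) (ht0 : 0 ≤ t) (ht : t ≤ C) :
    |mainE z w t - mainE z' w t| ≤ C * ‖z⁻¹ - z'⁻¹‖ +
      (2 * C + C ^ 2 / 2) * ‖(z ^ 2)⁻¹ - (z' ^ 2)⁻¹‖ := by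
  unfold mainE
  rw [← Complex.sub_im]
  refine (Complex.abs_im_le_norm _).trans ?_
  have e1 : -(w : ℂ) / z + (2 * (t : ℂ) - (w : ℂ) ^ 2 / 2) / z ^ 2 -
      (-(w : ℂ) / z' + (2 * (t : ℂ) - (w : ℂ) ^ 2 / 2) / z' ^ 2) =
      (-(w : ℂ)) * (z⁻¹ - z'⁻¹) + (2 * (t : ℂ) - (w : ℂ) ^ 2 / 2) * ((z ^ 2)⁻¹ - (z' ^ 2)⁻¹) := by
    simp only [div_eq_mul_inv]
    ring
  rw [e1]
  refine (norm_add_le _ _).trans ?_
  rw [norm_mul, norm_mul, norm_neg, Complex.norm_real, Real.norm_eq_abs]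
  refine add_le_add (mul_le_mul_of_nonneg_right hw (norm_nonneg _))
    (mul_le_mul_of_nonneg_right ?_ (norm_nonneg _))
  have e2 : (2 * (t : ℂ) - (w : ℂ) ^ 2 / 2) = ((2 * t - w ^ 2 / 2 : ℝ) : ℂ) := by push_cast; ring
  rw [e2, Complex.norm_real, Real.norm_eq_abs]
  have h1 : w ^ 2 ≤ C ^ 2 := by
    rw [← sq_abs w]; exact pow_le_pow_left₀ (abs_nonneg _) hw 2
  rw [abs_le]
  constructor <;> nlinarith [sq_nonneg w]

theorem St.mono (h : S.St T R κ) {T' R' : ℝ} (hT : T ≤ T') (hR : R ≤ R') : S.St T' R' κ :=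
  ⟨h.stop, fun n ω j hj => ⟨((h.bef n ω) j hj).1.trans hT, ((h.bef n ω) j hj).2.trans hR⟩⟩

/-- The main terms of the expansion have small conditional increments. -/
theorem main_small (hS : S.Ok) (hO : S.Obs P) (hT : 0 ≤ T) (hR : 0 < R) :
    ∃ C2 Y0 : ℝ, 0 ≤ C2 ∧ 0 < Y0 ∧ ∀ z : ℂ, Y0 ≤ z.im → ∀ (κ κ' : ∀ n, Ω n → ℕ)
      (Y : ∀ n, Ω n → ℝ), (∀ n, IsStop (S.F n) (κ n)) → S.St T R κ' →
      (∀ n ω, κ n ω ≤ κ' n ω) → (∀ n, Past (S.F n) (κ n) (Y n)) → (∀ n ω, |Y n ω| ≤ 1) →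
      ∀ δ : ℝ, 0 < δ → ∀ᶠ n in atTop, |∫ ω, (mainE z (S.Va κ' n ω) (S.Ta κ' n ω) -
        mainE z (S.Va κ n ω) (S.Ta κ n ω)) * Y n ω ∂(P n)| ≤ C2 / z.im ^ 3 + δ := by
  obtain ⟨C, hC0, hC⟩ := hS.path_bd T R
  obtain ⟨C2, y₀, hC2, hy₀, hexp⟩ := arg_expansion hC0.le hC0.le
  refine ⟨16 * C2, 2 * y₀ + 4 * (T + 1), by positivity, by positivity, ?_⟩
  intro z hz κ κ' Y hκ hκ' hle hY hY1 δ hδ
  have hzim : 0 < z.im := lt_of_lt_of_le (by positivity) hz
  have hz0 : z ≠ 0 := by rintro rfl; simp at hzim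
  have hκs : S.St T R κ := hκ'.of_le hκ hle
  have h16 : 16 * (T + 1) ≤ z.im ^ 2 := by nlinarith
  obtain ⟨zn, hzn, hmart⟩ := hO.mart T R z hT hR hzim h16
  have hm := hmart κ κ' Y hκ hκ' hle hY hY1
  have t1 : Tendsto (fun n => ‖z⁻¹ - (zn n)⁻¹‖) atTop (𝓝 0) := by
    have h1 := (hzn.inv₀ hz0).const_sub z⁻¹
    rw [sub_self] at h1
    simpa using h1.norm
  have t2 : Tendsto (fun n => ‖(z ^ 2)⁻¹ - (zn n ^ 2)⁻¹‖) atTop (𝓝 0) := by
    have h1 := ((hzn.pow 2).inv₀ (pow_ne_zero 2 hz0)).const_sub (z ^ 2)⁻¹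
    rw [sub_self] at h1
    simpa using h1.norm
  have t3 : Tendsto (fun n => C * ‖z⁻¹ - (zn n)⁻¹‖ +
      (2 * C + C ^ 2 / 2) * ‖(z ^ 2)⁻¹ - (zn n ^ 2)⁻¹‖) atTop (𝓝 0) := by
    have := (t1.const_mul C).add (t2.const_mul (2 * C + C ^ 2 / 2))
    simpa using this
  have h3 := t3.eventually (gt_mem_nhds (show (0 : ℝ) < δ / 4 by positivity))
  have h4 : ∀ᶠ n in atTop, z.im / 2 < (zn n).im :=
    ((Complex.continuous_im.tendsto z).comp hzn).eventually (lt_mem_nhds (by linarith))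
  have h5 := (hm.abs).eventually (gt_mem_nhds (show |(0 : ℝ)| < δ / 2 by rw [abs_zero]; positivity))
  filter_upwards [h3, h4, h5] with n hn3 hn4 hn5
  have est : ∀ (ρ : ∀ n, Ω n → ℕ), S.St T R ρ → ∀ ω,
      |mainE z (S.Va ρ n ω) (S.Ta ρ n ω) - (S.Ma (zn n) ρ n ω - arg (zn n))| ≤
        8 * C2 / z.im ^ 3 + δ / 4 := by
    intro ρ hρ ω
    obtain ⟨hp, hτ⟩ := hC n ω (ρ n ω) (hρ.bef n ω)
    have hτ0 : 0 ≤ S.Ta ρ n ω := by
      change 0 ≤ S.τ n _ ω
      rw [← hS.zero n ω]; exact hS.mono n ω (Nat.zero_le _)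
    have hW : |S.Va ρ n ω| ≤ C := hp _ hτ0 le_rfl
    have h6 := hexp (S.W n ω) (zn n) (S.Ta ρ n ω) hτ0 hτ
      ((hO.cont n ω).mono Icc_subset_Ici_self) (fun s hs => hp s hs.1 hs.2)
      (by
        have : 0 ≤ 4 * (T + 1) := by positivity
        linarith)
    have h7 := mainE_sub z (zn n) hW hτ0 hτ
    have h8 : C2 / (zn n).im ^ 3 ≤ 8 * C2 / z.im ^ 3 := by
      have h9 : (z.im / 2) ^ 3 ≤ (zn n).im ^ 3 := pow_le_pow_left₀ (by positivity) hn4.le 3
      have h10 : 0 < (z.im / 2) ^ 3 := by positivity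
      calc C2 / (zn n).im ^ 3 ≤ C2 / (z.im / 2) ^ 3 := div_le_div_of_nonneg_left hC2 h10 h9
        _ = 8 * C2 / z.im ^ 3 := by field_simp; norm_num
    have h11 : mainE z (S.Va ρ n ω) (S.Ta ρ n ω) - (S.Ma (zn n) ρ n ω - arg (zn n)) =
        (mainE z (S.Va ρ n ω) (S.Ta ρ n ω) - mainE (zn n) (S.Va ρ n ω) (S.Ta ρ n ω)) -
        (arg (flow (S.W n ω) (S.Ta ρ n ω) (zn n)) - arg (zn n) -
          mainE (zn n) (S.W n ω (S.Ta ρ n ω)) (S.Ta ρ n ω)) := by
      change _ - (arg (flow (S.W n ω) (S.Ta ρ n ω) (zn n)) - arg (zn n)) = _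
      have : S.Va ρ n ω = S.W n ω (S.Ta ρ n ω) := rfl
      rw [this]
      ring
    rw [h11]
    refine (abs_sub _ _).trans ?_
    linarith
  -- integrate
  have mE : ∀ (ρ : ∀ n, Ω n → ℕ), (∀ n, IsStop (S.F n) (ρ n)) →
      Measurable fun ω => mainE z (S.Va ρ n ω) (S.Ta ρ n ω) := by
    intro ρ hρ
    have m1 := (hS.pastV hρ n).measurable (hρ n)
    have m2 := (hS.pastT hρ n).measurable (hρ n)
    unfold mainE
    fun_prop
  have mM : ∀ (ρ : ∀ n, Ω n → ℕ), (∀ n, IsStop (S.F n) (ρ n)) → Measurable (S.Ma (zn n) ρ n) :=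
    fun ρ hρ => Ma_meas hS hO hρ (zn n) n
  have mY : Measurable (Y n) := (hY n).measurable (hκ n)
  set G : Ω n → ℝ := fun ω => (mainE z (S.Va κ' n ω) (S.Ta κ' n ω) -
    mainE z (S.Va κ n ω) (S.Ta κ n ω)) * Y n ω with hG
  set H : Ω n → ℝ := fun ω => (S.Ma (zn n) κ' n ω - S.Ma (zn n) κ n ω) * Y n ω with hH
  have mH : Measurable H := ((mM κ' hκ'.stop).sub (mM κ hκ)).mul mY
  have mG : Measurable G := ((mE κ' hκ'.stop).sub (mE κ hκ)).mul mY
  have bH : ∀ ω, ‖H ω‖ ≤ 2 * Real.pi := by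
    intro ω
    rw [hH, Real.norm_eq_abs, abs_mul]
    have a1 : |S.Ma (zn n) κ' n ω| ≤ Real.pi := Complex.abs_arg_le_pi _
    have a2 : |S.Ma (zn n) κ n ω| ≤ Real.pi := Complex.abs_arg_le_pi _
    have a3 := abs_sub (S.Ma (zn n) κ' n ω) (S.Ma (zn n) κ n ω)
    calc |S.Ma (zn n) κ' n ω - S.Ma (zn n) κ n ω| * |Y n ω| ≤ (2 * Real.pi) * 1 :=
          mul_le_mul (by linarith) (hY1 n ω) (abs_nonneg _) (by positivity)
      _ = 2 * Real.pi := mul_one _
  have hd : ∀ ω, ‖G ω - H ω‖ ≤ 16 * C2 / z.im ^ 3 + δ / 2 := by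
    intro ω
    have a1 := est κ' hκ' ω
    have a2 := est κ hκs ω
    have e1 : G ω - H ω = ((mainE z (S.Va κ' n ω) (S.Ta κ' n ω) -
        (S.Ma (zn n) κ' n ω - arg (zn n))) - (mainE z (S.Va κ n ω) (S.Ta κ n ω) -
        (S.Ma (zn n) κ n ω - arg (zn n)))) * Y n ω := by rw [hG, hH]; ring
    rw [e1, Real.norm_eq_abs, abs_mul]
    refine (mul_le_of_le_one_right (abs_nonneg _) (hY1 n ω)).trans ?_
    refine (abs_sub _ _).trans ?_
    have : 16 * C2 / z.im ^ 3 = 8 * C2 / z.im ^ 3 + 8 * C2 / z.im ^ 3 := by ring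
    linarith
  have iH : Integrable H (P n) := Integrable.of_bound mH.aestronglyMeasurable _
    (Eventually.of_forall bH)
  have iD : Integrable (fun ω => G ω - H ω) (P n) :=
    Integrable.of_bound (mG.sub mH).aestronglyMeasurable _ (Eventually.of_forall hd)
  have e2 : ∫ ω, G ω ∂(P n) = ∫ ω, H ω ∂(P n) + ∫ ω, (G ω - H ω) ∂(P n) := by
    rw [← integral_add iH iD]
    congr 1
    funext ω
    ring
  have e3 : |∫ ω, (G ω - H ω) ∂(P n)| ≤ 16 * C2 / z.im ^ 3 + δ / 2 := by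
    have := norm_integral_le_of_norm_le_const (μ := P n) (Eventually.of_forall hd)
    simpa using this
  change |∫ ω, G ω ∂(P n)| ≤ _
  rw [e2]
  refine (abs_add_le _ _).trans ?_
  have e4 : |∫ ω, H ω ∂(P n)| < δ / 2 := hn5
  linarith

theorem mainE_iy {y : ℝ} (hy : 0 < y) (w t : ℝ) : mainE (y * I) w t = w / y := by
  unfold mainE
  have h1 : (-(w : ℂ) / (y * I)) = ((w / y : ℝ) : ℂ) * I := by
    have : (y : ℂ) ≠ 0 := by exact_mod_cast hy.ne'
    push_cast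
    field_simp
    rw [I_sq]
    ring
  have h2 : (2 * (t : ℂ) - (w : ℂ) ^ 2 / 2) / (y * I) ^ 2 =
      ((-(2 * t - w ^ 2 / 2) / y ^ 2 : ℝ) : ℂ) := by
    rw [mul_pow, I_sq]
    push_cast
    ring
  rw [h1, h2, Complex.add_im, Complex.ofReal_im, Complex.mul_im]
  simp

theorem mainE_pm {y : ℝ} (hy : 0 < y) (w t : ℝ) :
    mainE (y + y * I) w t - mainE (-y + y * I) w t = (w ^ 2 / 2 - 2 * t) / y ^ 2 := by
  unfold mainE
  have hy' : (y : ℂ) ≠ 0 := by exact_mod_cast hy.ne'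
  have n1 : (1 + I : ℂ) ≠ 0 := by
    intro h
    have := congrArg Complex.re h
    simp at this
  have n2 : (-1 + I : ℂ) ≠ 0 := by
    intro h
    have := congrArg Complex.re h
    simp at this
  have e1 : ((y : ℂ) + y * I) = y * (1 + I) := by ring
  have e2 : (-(y : ℂ) + y * I) = y * (-1 + I) := by ring
  have i1 : (1 + I : ℂ)⁻¹ = (1 - I) / 2 := by
    rw [inv_eq_iff_eq_inv, inv_div, eq_div_iff]
    · have := I_sq
      linear_combination (-1 : ℂ) * this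
    · intro h
      have := congrArg Complex.re h
      simp at this
  have i2 : (-1 + I : ℂ)⁻¹ = (-1 - I) / 2 := by
    rw [inv_eq_iff_eq_inv, inv_div, eq_div_iff]
    · have := I_sq
      linear_combination (-1 : ℂ) * this
    · intro h
      have := congrArg Complex.re h
      simp at this
  have q1 : ((y : ℂ) * (1 + I))⁻¹ = ((1 / (2 * y) : ℝ) : ℂ) * (1 - I) := by
    rw [mul_inv, i1]; push_cast; ring
  have q2 : ((y : ℂ) * (-1 + I))⁻¹ = ((1 / (2 * y) : ℝ) : ℂ) * (-1 - I) := by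
    rw [mul_inv, i2]; push_cast; ring
  have s1 : (((y : ℂ) * (1 + I)) ^ 2)⁻¹ = ((-(1 / (2 * y ^ 2)) : ℝ) : ℂ) * I := by
    rw [← inv_pow, q1]
    have := I_sq
    push_cast
    field_simp
    ring_nf
    rw [this]
    ring
  have s2 : (((y : ℂ) * (-1 + I)) ^ 2)⁻¹ = ((1 / (2 * y ^ 2) : ℝ) : ℂ) * I := by
    rw [← inv_pow, q2]
    have := I_sq
    push_cast
    field_simp
    ring_nf
    rw [this]
    ring
  have w1 : (2 * (t : ℂ) - (w : ℂ) ^ 2 / 2) = ((2 * t - w ^ 2 / 2 : ℝ) : ℂ) := by push_cast; ring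
  rw [e1, e2, w1, div_eq_mul_inv (-(w : ℂ)) ((y : ℂ) * (1 + I)),
    div_eq_mul_inv (-(w : ℂ)) ((y : ℂ) * (-1 + I)),
    div_eq_mul_inv _ (((y : ℂ) * (1 + I)) ^ 2), div_eq_mul_inv _ (((y : ℂ) * (-1 + I)) ^ 2),
    q1, q2, s1, s2]
  simp only [Complex.add_im, Complex.mul_im, Complex.mul_re, Complex.neg_re, Complex.neg_im,
    Complex.ofReal_re, Complex.ofReal_im, Complex.sub_im, Complex.sub_re, Complex.one_re,
    Complex.one_im, Complex.I_re, Complex.I_im]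
  field_simp
  ring

/-- **The observable gives the approximate martingale problem.** -/
theorem Obs.am (hS : S.Ok) (hO : S.Obs P) : S.AM P := by
  constructor
  · intro T R κ κ' Y hκ hκ' hle hY hY1
    obtain ⟨C2, Y0, hC2, hY0, hmain⟩ := main_small (P := P) hS hO
      (T := max T 0) (R := max R 1) (le_max_right _ _) (by positivity)
    have hκ'' : S.St (max T 0) (max R 1) κ' := hκ'.mono (le_max_left _ _) (le_max_left _ _)
    rw [Metric.tendsto_atTop]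
    intro ε hε
    set y : ℝ := max Y0 1 + 2 * C2 / ε with hy
    have hy1 : 1 ≤ y := by
      have : 0 ≤ 2 * C2 / ε := by positivity
      have := le_max_right Y0 1
      linarith
    have hy0 : 0 < y := by linarith
    have hyY : Y0 ≤ ((y : ℂ) * I).im := by
      have : 0 ≤ 2 * C2 / ε := by positivity
      have := le_max_left Y0 1
      simp only [Complex.mul_im, Complex.ofReal_re, Complex.I_im, Complex.ofReal_im, Complex.I_re,
        mul_one, mul_zero, add_zero]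
      linarith
    have h1 := hmain (y * I) hyY κ κ' Y hκ hκ'' hle hY hY1 (ε / (4 * y)) (by positivity)
    obtain ⟨N, hN⟩ := eventually_atTop.1 h1
    refine ⟨N, fun n hn => ?_⟩
    have h2 := hN n hn
    simp only [mainE_iy hy0] at h2
    have him : ((y : ℂ) * I).im = y := by simp
    rw [him] at h2
    have e1 : ∫ ω, (S.Va κ' n ω - S.Va κ n ω) * Y n ω ∂(P n) =
        y * ∫ ω, (S.Va κ' n ω / y - S.Va κ n ω / y) * Y n ω ∂(P n) := by
      rw [← integral_const_mul]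
      congr 1
      funext ω
      field_simp
    rw [Real.dist_eq, sub_zero, e1, abs_mul, abs_of_pos hy0]
    have h3 : C2 / y ^ 2 ≤ ε / 2 := by
      rw [div_le_iff₀ (by positivity)]
      have h4 : 2 * C2 / ε ≤ y := by
        have := le_max_right Y0 1
        linarith
      have h5 : 2 * C2 ≤ y * ε := by rwa [div_le_iff₀ hε] at h4
      nlinarith [mul_le_mul_of_nonneg_left hy1 (mul_nonneg hy0.le hε.le)]
    calc y * |∫ ω, (S.Va κ' n ω / y - S.Va κ n ω / y) * Y n ω ∂(P n)|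
        ≤ y * (C2 / y ^ 3 + ε / (4 * y)) := mul_le_mul_of_nonneg_left h2 hy0.le
      _ = C2 / y ^ 2 + ε / 4 := by field_simp
      _ < ε := by linarith
  · intro T R κ κ' Y hκ hκ' hle hY hY1
    obtain ⟨C2, Y0, hC2, hY0, hmain⟩ := main_small (P := P) hS hO
      (T := max T 0) (R := max R 1) (le_max_right _ _) (by positivity)
    have hκ'' : S.St (max T 0) (max R 1) κ' := hκ'.mono (le_max_left _ _) (le_max_left _ _)
    have hκs := hκ''.of_le hκ hle
    rw [Metric.tendsto_atTop]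
    intro ε hε
    set y : ℝ := max Y0 1 + 16 * C2 / ε with hy
    have hy1 : 1 ≤ y := by
      have : 0 ≤ 16 * C2 / ε := by positivity
      have := le_max_right Y0 1
      linarith
    have hy0 : 0 < y := by linarith
    have hyY : Y0 ≤ y := by
      have : 0 ≤ 16 * C2 / ε := by positivity
      have := le_max_left Y0 1
      linarith
    have i1 : ((y : ℂ) + y * I).im = y := by simp
    have i2 : (-(y : ℂ) + y * I).im = y := by simp
    have h1 := hmain (y + y * I) (by rw [i1]; exact hyY) κ κ' Y hκ hκ'' hle hY hY1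
      (ε / (16 * y ^ 2)) (by positivity)
    have h1' := hmain (-y + y * I) (by rw [i2]; exact hyY) κ κ' Y hκ hκ'' hle hY hY1
      (ε / (16 * y ^ 2)) (by positivity)
    rw [i1] at h1
    rw [i2] at h1'
    obtain ⟨N, hN⟩ := eventually_atTop.1 (h1.and h1')
    refine ⟨N, fun n hn => ?_⟩
    obtain ⟨h2, h2'⟩ := hN n hn
    have bV := hS.bddV hκs
    have bV' := hS.bddV hκ''
    have bT := hS.bddT hκs
    have bT' := hS.bddT hκ''
    have bY : Bdd Y := ⟨fun n => (hY n).measurable (hκ n), 1, hY1⟩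
    have bE : ∀ (z : ℂ) (ρ : ∀ n, Ω n → ℕ), S.St (max T 0) (max R 1) ρ →
        Bdd (fun n ω => mainE z (S.Va ρ n ω) (S.Ta ρ n ω)) := by
      intro z ρ hρ
      have b1 := (hS.bddV hρ).ofReal
      have b2 := (hS.bddT hρ).ofReal
      have b3 : Bdd (fun n ω => (-z⁻¹) * (S.Va ρ n ω : ℂ) +
          (2 * (z ^ 2)⁻¹ * (S.Ta ρ n ω : ℂ) + (-(z ^ 2)⁻¹ / 2) *
            ((S.Va ρ n ω : ℂ) * (S.Va ρ n ω : ℂ)))) :=
        (b1.const_mulC _).add ((b2.const_mulC _).add ((b1.mulC b1).const_mulC _))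
      have e : (fun n ω => mainE z (S.Va ρ n ω) (S.Ta ρ n ω)) = fun n ω => ((-z⁻¹) *
          (S.Va ρ n ω : ℂ) + (2 * (z ^ 2)⁻¹ * (S.Ta ρ n ω : ℂ) + (-(z ^ 2)⁻¹ / 2) *
            ((S.Va ρ n ω : ℂ) * (S.Va ρ n ω : ℂ)))).im := by
        funext n ω
        unfold mainE
        congr 1
        simp only [div_eq_mul_inv]
        ring
      rw [e]
      exact b3.im
    have b1 : Bdd (fun n ω => (mainE (y + y * I) (S.Va κ' n ω) (S.Ta κ' n ω) -
        mainE (y + y * I) (S.Va κ n ω) (S.Ta κ n ω)) * Y n ω) :=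
      ((bE _ κ' hκ'').sub (bE _ κ hκs)).mul bY
    have b2 : Bdd (fun n ω => (mainE (-y + y * I) (S.Va κ' n ω) (S.Ta κ' n ω) -
        mainE (-y + y * I) (S.Va κ n ω) (S.Ta κ n ω)) * Y n ω) :=
      ((bE _ κ' hκ'').sub (bE _ κ hκs)).mul bY
    have e1 : ∫ ω, ((S.Va κ' n ω ^ 2 - 4 * S.Ta κ' n ω) -
        (S.Va κ n ω ^ 2 - 4 * S.Ta κ n ω)) * Y n ω ∂(P n) =
        2 * y ^ 2 * (∫ ω, (mainE (y + y * I) (S.Va κ' n ω) (S.Ta κ' n ω) -
        mainE (y + y * I) (S.Va κ n ω) (S.Ta κ n ω)) * Y n ω ∂(P n) -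
        ∫ ω, (mainE (-y + y * I) (S.Va κ' n ω) (S.Ta κ' n ω) -
        mainE (-y + y * I) (S.Va κ n ω) (S.Ta κ n ω)) * Y n ω ∂(P n)) := by
      rw [← integral_sub (b1.integrable n) (b2.integrable n), ← integral_const_mul]
      congr 1
      funext ω
      have h3 := mainE_pm hy0 (S.Va κ' n ω) (S.Ta κ' n ω)
      have h4 := mainE_pm hy0 (S.Va κ n ω) (S.Ta κ n ω)
      have h5 : (S.Va κ' n ω ^ 2 - 4 * S.Ta κ' n ω) = 2 * y ^ 2 *
          (mainE (y + y * I) (S.Va κ' n ω) (S.Ta κ' n ω) -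
            mainE (-y + y * I) (S.Va κ' n ω) (S.Ta κ' n ω)) := by
        rw [h3]; field_simp; ring
      have h6 : (S.Va κ n ω ^ 2 - 4 * S.Ta κ n ω) = 2 * y ^ 2 *
          (mainE (y + y * I) (S.Va κ n ω) (S.Ta κ n ω) -
            mainE (-y + y * I) (S.Va κ n ω) (S.Ta κ n ω)) := by
        rw [h4]; field_simp; ring
      rw [h5, h6]
      ring
    rw [Real.dist_eq, sub_zero, e1, abs_mul, abs_of_pos (by positivity)]
    have h3 : 4 * C2 / y ≤ ε / 4 := by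
      rw [div_le_iff₀ hy0]
      have h4 : 16 * C2 / ε ≤ y := by
        have := le_max_right Y0 1
        linarith
      have h5 : 16 * C2 ≤ y * ε := by rwa [div_le_iff₀ hε] at h4
      linarith
    have h7 := (abs_sub (∫ ω, (mainE (y + y * I) (S.Va κ' n ω) (S.Ta κ' n ω) -
        mainE (y + y * I) (S.Va κ n ω) (S.Ta κ n ω)) * Y n ω ∂(P n))
        (∫ ω, (mainE (-y + y * I) (S.Va κ' n ω) (S.Ta κ' n ω) -
        mainE (-y + y * I) (S.Va κ n ω) (S.Ta κ n ω)) * Y n ω ∂(P n)))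
    calc _ ≤ 2 * y ^ 2 * (2 * (C2 / y ^ 3 + ε / (16 * y ^ 2))) := by
          refine mul_le_mul_of_nonneg_left ?_ (by positivity)
          linarith
      _ = 4 * C2 / y + ε / 4 := by field_simp; ring
      _ < ε := by linarith

end Sys

end Vale.Agent.P153.M1
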