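import Mathlib.Probability.Process.Filtration
import Mathlib.MeasureTheory.Constructions.BorelSpace.Basic
import Mathlib.MeasureTheory.Constructions.BorelSpace.Order
import Mathlib.MeasureTheory.Function.SpecialFunctions.Basic
import Mathlib.Tactic

/-!
# P153, block M1: stopping indices of a filtration indexed by the natural numbers
-/

set_option linter.unusedSectionVars false
set_option linter.unusedVariables false

namespace Vale.Agent.P153.M1

open MeasureTheory Filter Topology Set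

variable {Ω : Type*} {m : MeasurableSpace Ω} {F : Filtration ℕ m} {E E' : Type*}
  [MeasurableSpace E] [MeasurableSpace E'] [Zero E] [Zero E']

/-- `κ` is a stopping index of the filtration `F`. -/
def IsStop (F : Filtration ℕ m) (κ : Ω → ℕ) : Prop := ∀ k, MeasurableSet[F k] {ω | κ ω ≤ k}

/-- `Y` is measurable with respect to the past of the stopping index `κ`. -/
def Past (F : Filtration ℕ m) (κ : Ω → ℕ) (Y : Ω → E) : Prop :=
  ∀ k, Measurable[F k] ({ω | κ ω ≤ k}.indicator Y)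

variable {κ κ' : Ω → ℕ} {Y : Ω → E} {Z : Ω → E'}

theorem IsStop.mono (h : IsStop F κ) {k l : ℕ} (hkl : k ≤ l) :
    MeasurableSet[F l] {ω | κ ω ≤ k} := F.mono hkl _ (h k)

theorem IsStop.lt (h : IsStop F κ) (k : ℕ) : MeasurableSet[F k] {ω | κ ω < k} := by
  rcases Nat.eq_zero_or_pos k with rfl | hk
  · simp
  · have : {ω | κ ω < k} = {ω | κ ω ≤ k - 1} := by
      ext ω; simp only [mem_ofPred_eq]; omega
    rw [this]
    exact h.mono (Nat.sub_le _ _)

theorem IsStop.eq (h : IsStop F κ) (k : ℕ) : MeasurableSet[F k] {ω | κ ω = k} := by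
  have : {ω | κ ω = k} = {ω | κ ω ≤ k} \ {ω | κ ω < k} := by
    ext ω; simp only [mem_ofPred_eq, Set.mem_sdiff]; omega
  rw [this]
  exact (h k).diff (h.lt k)

theorem IsStop.const (k : ℕ) : IsStop F (fun _ : Ω => k) := fun j => by
  by_cases h : k ≤ j <;> simp [h]

theorem IsStop.inf (h : IsStop F κ) (h' : IsStop F κ') : IsStop F (fun ω => min (κ ω) (κ' ω)) := by
  intro k
  have : {ω | min (κ ω) (κ' ω) ≤ k} = {ω | κ ω ≤ k} ∪ {ω | κ' ω ≤ k} := by
    ext ω; simp only [mem_ofPred_eq, mem_union]; omega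
  rw [this]
  exact (h k).union (h' k)

theorem Past.meas_set (h : Past F κ Y) (hκ : IsStop F κ) {s : Set E} (hs : MeasurableSet s)
    (k : ℕ) : MeasurableSet[F k] ({ω | κ ω ≤ k} ∩ Y ⁻¹' s) := by
  have : {ω | κ ω ≤ k} ∩ Y ⁻¹' s =
      {ω | κ ω ≤ k} ∩ ({ω | κ ω ≤ k}.indicator Y) ⁻¹' s := by
    ext ω
    simp only [mem_inter_iff, mem_ofPred_eq, mem_preimage]
    constructor
    · rintro ⟨h1, h2⟩
      refine ⟨h1, ?_⟩
      rwa [indicator_of_mem (show ω ∈ {ω | κ ω ≤ k} from h1)]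
    · rintro ⟨h1, h2⟩
      refine ⟨h1, ?_⟩
      rwa [indicator_of_mem (show ω ∈ {ω | κ ω ≤ k} from h1)] at h2
  rw [this]
  exact (hκ k).inter (h k hs)

theorem past_of_sets (hκ : IsStop F κ)
    (h : ∀ s : Set E, MeasurableSet s → ∀ k, MeasurableSet[F k] ({ω | κ ω ≤ k} ∩ Y ⁻¹' s)) :
    Past F κ Y := by
  classical
  intro k s hs
  have : ({ω | κ ω ≤ k}.indicator Y) ⁻¹' s = ({ω | κ ω ≤ k} ∩ Y ⁻¹' s) ∪
      ({ω | κ ω ≤ k}ᶜ ∩ (fun _ => (0 : E)) ⁻¹' s) := by
    ext ω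
    by_cases h1 : κ ω ≤ k
    · simp [indicator, h1]
    · simp [indicator, h1]
  rw [this]
  exact (h s hs k).union ((hκ k).compl.inter (measurable_const hs))

theorem past_iff_sets (hκ : IsStop F κ) : Past F κ Y ↔
    ∀ s : Set E, MeasurableSet s → ∀ k, MeasurableSet[F k] ({ω | κ ω ≤ k} ∩ Y ⁻¹' s) :=
  ⟨fun h _ hs k => h.meas_set hκ hs k, past_of_sets hκ⟩

theorem Past.measurable (h : Past F κ Y) (hκ : IsStop F κ) : Measurable Y := by
  intro s hs
  have : Y ⁻¹' s = ⋃ k, ({ω | κ ω ≤ k} ∩ Y ⁻¹' s) := by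
    ext ω
    simp only [mem_preimage, mem_iUnion, mem_inter_iff, mem_ofPred_eq]
    exact ⟨fun h => ⟨κ ω, le_rfl, h⟩, fun ⟨_, _, h⟩ => h⟩
  rw [this]
  exact MeasurableSet.iUnion fun k => F.le k _ (h.meas_set hκ hs k)

theorem Past.mono (h : Past F κ Y) (hκ : IsStop F κ) (hκ' : IsStop F κ') (hle : ∀ ω, κ ω ≤ κ' ω) :
    Past F κ' Y := by
  refine past_of_sets hκ' fun s hs k => ?_
  have : {ω | κ' ω ≤ k} ∩ Y ⁻¹' s = {ω | κ' ω ≤ k} ∩ ({ω | κ ω ≤ k} ∩ Y ⁻¹' s) := by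
    ext ω
    simp only [mem_inter_iff, mem_ofPred_eq, mem_preimage]
    exact ⟨fun ⟨h1, h2⟩ => ⟨h1, (hle ω).trans h1, h2⟩, fun ⟨h1, _, h2⟩ => ⟨h1, h2⟩⟩
  rw [this]
  exact (hκ' k).inter (h.meas_set hκ hs k)

theorem Past.comp (h : Past F κ Y) (hκ : IsStop F κ) {f : E → E'} (hf : Measurable f) :
    Past F κ (fun ω => f (Y ω)) :=
  past_of_sets hκ fun _ hs k => h.meas_set hκ (hf hs) k

theorem Past.comp₂ {E'' : Type*} [MeasurableSpace E''] [Zero E''] (h : Past F κ Y)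
    (h' : Past F κ Z) (hκ : IsStop F κ) {f : E → E' → E''}
    (hf : Measurable (fun p : E × E' => f p.1 p.2)) :
    Past F κ (fun ω => f (Y ω) (Z ω)) := by
  intro k
  have h1 : Measurable[F k] (fun ω => f ({ω | κ ω ≤ k}.indicator Y ω)
      ({ω | κ ω ≤ k}.indicator Z ω)) := by
    have := (h k).prodMk (h' k)
    exact hf.comp this
  have : ({ω | κ ω ≤ k}.indicator fun ω => f (Y ω) (Z ω)) =
      {ω | κ ω ≤ k}.indicator (fun ω => f ({ω | κ ω ≤ k}.indicator Y ω)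
      ({ω | κ ω ≤ k}.indicator Z ω)) := by
    funext ω
    by_cases h1 : κ ω ≤ k
    · simp [indicator, h1]
    · simp [indicator, h1]
  rw [this]
  exact h1.indicator (hκ k)

theorem Past.const (hκ : IsStop F κ) (c : E) : Past F κ (fun _ => c) := fun k =>
  measurable_const.indicator (hκ k)

theorem Past.indicator_set (hκ : IsStop F κ) {A : Set Ω}
    (hA : ∀ k, MeasurableSet[F k] ({ω | κ ω ≤ k} ∩ A)) (c : E) :
    Past F κ (A.indicator fun _ => c) := by
  intro k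
  have : ({ω | κ ω ≤ k}.indicator (A.indicator fun _ => c)) =
      ({ω | κ ω ≤ k} ∩ A).indicator fun _ => c := by
    rw [indicator_indicator]
  rw [this]
  exact measurable_const.indicator (hA k)

/-- The value of an adapted process at a stopping index is measurable with respect to its past. -/
theorem past_value (hκ : IsStop F κ) {V : ℕ → Ω → E} (hV : ∀ k, Measurable[F k] (V k)) :
    Past F κ (fun ω => V (κ ω) ω) := by
  refine past_of_sets hκ fun s hs k => ?_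
  have : {ω | κ ω ≤ k} ∩ (fun ω => V (κ ω) ω) ⁻¹' s =
      ⋃ j ∈ Finset.range (k + 1), ({ω | κ ω = j} ∩ V j ⁻¹' s) := by
    ext ω
    simp only [mem_inter_iff, mem_ofPred_eq, mem_preimage, Finset.mem_range, mem_iUnion,
      exists_prop]
    constructor
    · rintro ⟨h1, h2⟩
      exact ⟨κ ω, by omega, rfl, h2⟩
    · rintro ⟨j, h1, h2, h3⟩
      subst h2
      exact ⟨by omega, h3⟩
  rw [this]
  refine Finset.measurableSet_biUnion _ fun j hj => ?_
  have hjk : j ≤ k := by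
    have := Finset.mem_range.1 hj
    omega
  exact F.mono hjk _ ((hκ.eq j).inter (hV j hs))

/-- First index where a decidable adapted property holds. -/
noncomputable def first (Q : ℕ → Ω → Prop) (h : ∀ ω, ∃ k, Q k ω) (ω : Ω) : ℕ := by
  classical exact Nat.find (h ω)

theorem first_spec {Q : ℕ → Ω → Prop} (h : ∀ ω, ∃ k, Q k ω) (ω : Ω) : Q (first Q h ω) ω := by
  classical
  unfold first
  convert Nat.find_spec (h ω)

theorem first_min {Q : ℕ → Ω → Prop} (h : ∀ ω, ∃ k, Q k ω) (ω : Ω) {k : ℕ}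
    (hk : k < first Q h ω) : ¬ Q k ω := by
  classical
  unfold first at hk
  have := Nat.find_min (h ω) (m := k)
  intro hq
  apply this _ hq
  convert hk

theorem first_le {Q : ℕ → Ω → Prop} (h : ∀ ω, ∃ k, Q k ω) (ω : Ω) {k : ℕ} (hk : Q k ω) :
    first Q h ω ≤ k := by
  by_contra hc
  exact first_min h ω (not_le.1 hc) hk

theorem first_isStop {Q : ℕ → Ω → Prop} (h : ∀ ω, ∃ k, Q k ω)
    (hQ : ∀ k, MeasurableSet[F k] {ω | Q k ω}) : IsStop F (first Q h) := by
  intro k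
  have : {ω | first Q h ω ≤ k} = ⋃ j ∈ Finset.range (k + 1), {ω | Q j ω} := by
    ext ω
    simp only [mem_ofPred_eq, Finset.mem_range, mem_iUnion, exists_prop]
    constructor
    · intro h1
      exact ⟨first Q h ω, by omega, first_spec h ω⟩
    · rintro ⟨j, h1, h2⟩
      have := first_le h ω h2
      omega
  rw [this]
  refine Finset.measurableSet_biUnion _ fun j hj => ?_
  have hjk : j ≤ k := by
    have := Finset.mem_range.1 hj
    omega
  exact F.mono hjk _ (hQ j)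

/-- The next index after `κ`, and at the latest `κ'`, at which `V` is at distance at least `ε` from
its value at `κ`. -/
noncomputable def nxt (V : ℕ → Ω → ℝ) (κ κ' : Ω → ℕ) (ε : ℝ) : Ω → ℕ :=
  first (fun j ω => κ ω ≤ j ∧ (ε ≤ |V j ω - V (κ ω) ω| ∨ κ' ω ≤ j))
    (fun ω => ⟨max (κ ω) (κ' ω), le_max_left _ _, Or.inr (le_max_right _ _)⟩)

variable {V : ℕ → Ω → ℝ} {ε : ℝ}

theorem le_nxt (ω : Ω) : κ ω ≤ nxt V κ κ' ε ω :=
  (first_spec (Q := fun j ω => κ ω ≤ j ∧ (ε ≤ |V j ω - V (κ ω) ω| ∨ κ' ω ≤ j)) _ ω).1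

theorem nxt_le {ω : Ω} (h : κ ω ≤ κ' ω) : nxt V κ κ' ε ω ≤ κ' ω :=
  first_le _ ω ⟨h, Or.inr le_rfl⟩

theorem nxt_lt {ω : Ω} {j : ℕ} (h1 : κ ω ≤ j) (h2 : j < nxt V κ κ' ε ω) :
    |V j ω - V (κ ω) ω| < ε := by
  have := first_min _ ω h2
  by_contra h
  exact this ⟨h1, Or.inl (not_lt.1 h)⟩

theorem nxt_eq {ω : Ω} (h : κ ω ≤ κ' ω)
    (h1 : |V (nxt V κ κ' ε ω) ω - V (κ ω) ω| < ε) : nxt V κ κ' ε ω = κ' ω := by
  rcases (first_spec (Q := fun j ω => κ ω ≤ j ∧ (ε ≤ |V j ω - V (κ ω) ω| ∨ κ' ω ≤ j))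
    (fun ω => ⟨max (κ ω) (κ' ω), le_max_left _ _, Or.inr (le_max_right _ _)⟩) ω).2 with h2 | h2
  · exact absurd h1 (not_lt.2 h2)
  · exact le_antisymm (nxt_le h) h2

theorem nxt_isStop (hκ : IsStop F κ) (hκ' : IsStop F κ') (hV : ∀ k, Measurable[F k] (V k)) :
    IsStop F (nxt V κ κ' ε) := by
  apply first_isStop
  intro k
  have : {ω | κ ω ≤ k ∧ (ε ≤ |V k ω - V (κ ω) ω| ∨ κ' ω ≤ k)} =
      ({ω | κ ω ≤ k} ∩ {ω | κ' ω ≤ k}) ∪
      ({ω | κ ω ≤ k} ∩ (fun ω => |V k ω - ({ω | κ ω ≤ k}.indicator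
        (fun ω => V (κ ω) ω)) ω|) ⁻¹' (Ici ε)) := by
    ext ω
    by_cases h : κ ω ≤ k
    · simp only [indicator, h, mem_ofPred_eq, true_and, mem_union, mem_inter_iff, mem_preimage,
        mem_Ici, if_true]
      tauto
    · simp [h]
  rw [this]
  refine ((hκ k).inter (hκ' k)).union ((hκ k).inter ?_)
  have h1 : Measurable[F k] (fun ω => V k ω - ({ω | κ ω ≤ k}.indicator
        (fun ω => V (κ ω) ω)) ω) := (hV k).sub (past_value hκ hV k)
  have h2 : Measurable[F k] (fun ω => |V k ω - ({ω | κ ω ≤ k}.indicator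
        (fun ω => V (κ ω) ω)) ω|) := continuous_abs.measurable.comp h1
  exact h2 measurableSet_Ici

end Vale.Agent.P153.M1
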