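import Vale.Agent.P153.R2.M1.LimE
import Vale.Agent.P153.R2.M1.Stop

/-!
# P153, block M1: approximate martingale problems

A sequence of probability spaces with exploration filtrations, driving functions `W` and exploration
times `τ`.
-/

set_option linter.unusedSectionVars false
set_option linter.unusedVariables false

namespace Vale.Agent.P153.M1

open MeasureTheory Filter Topology Set

/-- The data: filtrations indexed by the exploration steps, a function `W` of time for every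
outcome, and the times `τ` of the exploration steps. -/
structure Sys (Ω : ℕ → Type*) [mΩ : ∀ n, MeasurableSpace (Ω n)] where
  F : ∀ n, Filtration ℕ (mΩ n)
  W : ∀ n, Ω n → ℝ → ℝ
  τ : ∀ n, ℕ → Ω n → ℝ

namespace Sys

variable {Ω : ℕ → Type*} [mΩ : ∀ n, MeasurableSpace (Ω n)] (S : Sys Ω)

/-- The value of `W` at the `k`-th step. -/
def V (n : ℕ) (k : ℕ) (ω : Ω n) : ℝ := S.W n ω (S.τ n k ω)

/-- Before the index `k` the times stay below `T` and the values stay in `[-R, R]`. -/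
def Bef (T R : ℝ) (n : ℕ) (ω : Ω n) (k : ℕ) : Prop := ∀ j < k, S.τ n j ω ≤ T ∧ |S.V n j ω| ≤ R

/-- A sequence of stopping indices, at most the exit indices of `[0, T] × [-R, R]`. -/
structure St (T R : ℝ) (κ : ∀ n, Ω n → ℕ) : Prop where
  stop : ∀ n, IsStop (S.F n) (κ n)
  bef : ∀ n ω, S.Bef T R n ω (κ n ω)

/-- The value at a stopping index. -/
def Va (κ : ∀ n, Ω n → ℕ) (n : ℕ) (ω : Ω n) : ℝ := S.V n (κ n ω) ω

/-- The time of a stopping index. -/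
def Ta (κ : ∀ n, Ω n → ℕ) (n : ℕ) (ω : Ω n) : ℝ := S.τ n (κ n ω) ω

/-- The system is well formed and has small steps. -/
structure Ok : Prop where
  adV : ∀ n k, Measurable[S.F n k] (S.V n k)
  adτ : ∀ n k, Measurable[S.F n k] (S.τ n k)
  measW : ∀ n u, Measurable fun ω => S.W n ω u
  zero : ∀ n ω, S.τ n 0 ω = 0
  W0 : ∀ n ω, S.W n ω 0 = 0
  mono : ∀ n ω, Monotone fun k => S.τ n k ω
  unb : ∀ n ω T, ∃ k, T < S.τ n k ω
  small : ∀ T R : ℝ, ∃ e : ℕ → ℝ, Tendsto e atTop (𝓝 0) ∧ ∀ n ω k, S.Bef T R n ω (k + 1) →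
    S.τ n (k + 1) ω - S.τ n k ω ≤ e n ∧
      ∀ u ∈ Icc (S.τ n k ω) (S.τ n (k + 1) ω), |S.W n ω u - S.W n ω (S.τ n k ω)| ≤ e n

/-- The approximate martingale problem: `W` and `W² - 4 t`, stopped at the exit from
`[0, T] × [-R, R]`, are approximate martingales. -/
structure AM (P : ∀ n, Measure (Ω n)) : Prop where
  m1 : ∀ (T R : ℝ) (κ κ' : ∀ n, Ω n → ℕ) (Y : ∀ n, Ω n → ℝ), (∀ n, IsStop (S.F n) (κ n)) →
    S.St T R κ' → (∀ n ω, κ n ω ≤ κ' n ω) → (∀ n, Past (S.F n) (κ n) (Y n)) →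
    (∀ n ω, |Y n ω| ≤ 1) →
    Tendsto (fun n => ∫ ω, (S.Va κ' n ω - S.Va κ n ω) * Y n ω ∂(P n)) atTop (𝓝 0)
  m2 : ∀ (T R : ℝ) (κ κ' : ∀ n, Ω n → ℕ) (Y : ∀ n, Ω n → ℝ), (∀ n, IsStop (S.F n) (κ n)) →
    S.St T R κ' → (∀ n ω, κ n ω ≤ κ' n ω) → (∀ n, Past (S.F n) (κ n) (Y n)) →
    (∀ n ω, |Y n ω| ≤ 1) →
    Tendsto (fun n => ∫ ω, ((S.Va κ' n ω ^ 2 - 4 * S.Ta κ' n ω) -
      (S.Va κ n ω ^ 2 - 4 * S.Ta κ n ω)) * Y n ω ∂(P n)) atTop (𝓝 0)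

variable {S}

theorem Bef.mono {T R : ℝ} {n : ℕ} {ω : Ω n} {k l : ℕ} (h : S.Bef T R n ω l) (hkl : k ≤ l) :
    S.Bef T R n ω k := fun j hj => h j (hj.trans_le hkl)

theorem St.of_le {T R : ℝ} {κ κ' : ∀ n, Ω n → ℕ} (h' : S.St T R κ')
    (h : ∀ n, IsStop (S.F n) (κ n)) (hle : ∀ n ω, κ n ω ≤ κ' n ω) : S.St T R κ :=
  ⟨h, fun n ω => (h'.bef n ω).mono (hle n ω)⟩

/-- The step bound, nonnegative version. -/
theorem Ok.step (hS : S.Ok) (T R : ℝ) : ∃ e : ℕ → ℝ, (∀ n, 0 ≤ e n) ∧ Tendsto e atTop (𝓝 0) ∧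
    (∃ C, ∀ n, e n ≤ C) ∧ ∀ n ω k, S.Bef T R n ω (k + 1) →
    S.τ n (k + 1) ω - S.τ n k ω ≤ e n ∧ |S.V n (k + 1) ω - S.V n k ω| ≤ e n ∧
      ∀ u ∈ Icc (S.τ n k ω) (S.τ n (k + 1) ω), |S.W n ω u - S.W n ω (S.τ n k ω)| ≤ e n := by
  obtain ⟨e, he, h⟩ := hS.small T R
  have h1 : Tendsto (fun n => |e n|) atTop (𝓝 0) := by
    have := he.abs
    rwa [abs_zero] at this
  refine ⟨fun n => |e n|, fun n => abs_nonneg _, h1, ?_, fun n ω k hk => ?_⟩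
  · obtain ⟨C, hC⟩ := h1.bddAbove_range
    exact ⟨C, fun n => hC (mem_range_self n)⟩
  · obtain ⟨h2, h3⟩ := h n ω k hk
    refine ⟨h2.trans (le_abs_self _), ?_, fun u hu => (h3 u hu).trans (le_abs_self _)⟩
    exact (h3 _ ⟨hS.mono n ω (Nat.le_succ k), le_rfl⟩).trans (le_abs_self _)

theorem Ok.val_bd (hS : S.Ok) (T R : ℝ) : ∃ C, 0 < C ∧ ∀ n ω k, S.Bef T R n ω k →
    |S.V n k ω| ≤ C ∧ |S.τ n k ω| ≤ C := by
  obtain ⟨e, he0, -, ⟨C, hC⟩, h⟩ := hS.step T R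
  have hC0 : 0 ≤ C := (he0 0).trans (hC 0)
  refine ⟨|R| + |T| + C + 1, by positivity, fun n ω k hk => ?_⟩
  have hτ0 : 0 ≤ S.τ n k ω := by
    rw [← hS.zero n ω]; exact hS.mono n ω (Nat.zero_le k)
  rw [abs_of_nonneg hτ0]
  cases k with
  | zero =>
    have h0 := hS.zero n ω
    have hV : S.V n 0 ω = 0 := by unfold V; rw [h0]; exact hS.W0 n ω
    rw [hV, abs_zero, h0]
    constructor <;> positivity
  | succ k =>
    obtain ⟨h1, h2, -⟩ := h n ω k hk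
    obtain ⟨h3, h4⟩ := hk k (Nat.lt_succ_self k)
    have h5 := hC n
    have h6 := abs_sub_abs_le_abs_sub (S.V n (k + 1) ω) (S.V n k ω)
    have h7 := le_abs_self R
    have h8 := le_abs_self T
    have h9 := abs_nonneg R
    have h10 := abs_nonneg T
    constructor <;> linarith

variable {κ κ' κ'' : ∀ n, Ω n → ℕ} {T R : ℝ}

theorem Ok.pastV (hS : S.Ok) (h : ∀ n, IsStop (S.F n) (κ n)) (n : ℕ) :
    Past (S.F n) (κ n) (S.Va κ n) := past_value (h n) (hS.adV n)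

theorem Ok.pastT (hS : S.Ok) (h : ∀ n, IsStop (S.F n) (κ n)) (n : ℕ) :
    Past (S.F n) (κ n) (S.Ta κ n) := past_value (h n) (hS.adτ n)

theorem Ok.bddV (hS : S.Ok) (h : S.St T R κ) : Bdd (S.Va κ) := by
  obtain ⟨C, -, hC⟩ := hS.val_bd T R
  exact ⟨fun n => (hS.pastV h.stop n).measurable (h.stop n), C,
    fun n ω => (hC n ω _ (h.bef n ω)).1⟩

theorem Ok.bddT (hS : S.Ok) (h : S.St T R κ) : Bdd (S.Ta κ) := by
  obtain ⟨C, -, hC⟩ := hS.val_bd T R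
  exact ⟨fun n => (hS.pastT h.stop n).measurable (h.stop n), C,
    fun n ω => (hC n ω _ (h.bef n ω)).2⟩

theorem Ok.Ta_le (hS : S.Ok) (h : ∀ n ω, κ n ω ≤ κ' n ω) (n : ℕ) (ω : Ω n) :
    S.Ta κ n ω ≤ S.Ta κ' n ω := hS.mono n ω (h n ω)

end Sys

end Vale.Agent.P153.M1
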