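import Vale.Agent.P153.R2.M1.Mart

/-!
# P153, block M1: two-step tail bound, time indices, exit index
-/

set_option linter.unusedSectionVars false
set_option linter.unusedVariables false

namespace Vale.Agent.P153.M1

open MeasureTheory Filter Topology Set

namespace Sys

variable {Ω : ℕ → Type*} [mΩ : ∀ n, MeasurableSpace (Ω n)] {S : Sys Ω}
  {P : ∀ n, Measure (Ω n)} [∀ n, IsProbabilityMeasure (P n)] {U : Ultrafilter ℕ}
  {κ κ' κ'' : ∀ n, Ω n → ℕ} {T R : ℝ}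

/-- Indicator of a large gap. -/
noncomputable def big (ε a b : ℝ) : ℝ := if ε ≤ |a - b| then 1 else 0

theorem big_meas (ε : ℝ) : Measurable (fun p : ℝ × ℝ => big ε p.1 p.2) := by
  unfold big
  refine Measurable.ite ?_ measurable_const measurable_const
  exact measurableSet_le measurable_const (by fun_prop)

theorem big_nonneg (ε a b : ℝ) : 0 ≤ big ε a b := by
  unfold big; split_ifs <;> norm_num

theorem big_le (ε a b : ℝ) : big ε a b ≤ 1 := by
  unfold big; split_ifs <;> norm_num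

theorem big_abs (ε a b : ℝ) : |big ε a b| ≤ 1 := by
  rw [abs_of_nonneg (big_nonneg _ _ _)]; exact big_le _ _ _

/-- Two increments of size `ε` within time `h`: probability at most `(4 h / ε²)²`. -/
theorem tail2 (hS : S.Ok) (hM : S.AM P) (hU : (U : Filter ℕ) ≤ atTop)
    (hκ : ∀ n, IsStop (S.F n) (κ n)) (hκ' : S.St T R κ') (hle : ∀ n ω, κ n ω ≤ κ' n ω)
    {h : ℝ} (hh : 0 ≤ h) {e : ℕ → ℝ} (he : Tendsto e U (𝓝 0))
    (hT : ∀ n ω, S.Ta κ' n ω - S.Ta κ n ω ≤ h + e n) {ε : ℝ} (hε : 0 < ε) :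
    ∃ X : ∀ n, Ω n → ℝ, Bdd X ∧ (∀ n ω, 0 ≤ X n ω ∧ X n ω ≤ 1) ∧
      (∀ᶠ n in (atTop : Filter ℕ), ∀ ω, (∃ j, κ n ω ≤ j ∧ j ≤ κ' n ω ∧
        4 * ε ≤ |S.V n j ω - S.Va κ n ω|) → X n ω = 1) ∧
      LE P U X ≤ (4 * h / ε ^ 2) ^ 2 := by
  set ρ : ∀ n, Ω n → ℕ := fun n => nxt (S.V n) (κ n) (κ' n) ε with hρ
  set ρ' : ∀ n, Ω n → ℕ := fun n => nxt (S.V n) (ρ n) (κ' n) ε with hρ'
  have sρ : ∀ n, IsStop (S.F n) (ρ n) := fun n => nxt_isStop (hκ n) (hκ'.stop n) (hS.adV n)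
  have lρ : ∀ n ω, ρ n ω ≤ κ' n ω := fun n ω => nxt_le (hle n ω)
  have lκ : ∀ n ω, κ n ω ≤ ρ n ω := fun n ω => le_nxt ω
  have sρ' : ∀ n, IsStop (S.F n) (ρ' n) := fun n => nxt_isStop (sρ n) (hκ'.stop n) (hS.adV n)
  have lρ' : ∀ n ω, ρ' n ω ≤ κ' n ω := fun n ω => nxt_le (lρ n ω)
  have lρρ' : ∀ n ω, ρ n ω ≤ ρ' n ω := fun n ω => le_nxt ω
  have tρ : S.St T R ρ := hκ'.of_le sρ lρ
  have tρ' : S.St T R ρ' := hκ'.of_le sρ' lρ'
  set Y : ∀ n, Ω n → ℝ := fun n ω => big ε (S.Va ρ n ω) (S.Va κ n ω) with hY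
  set X : ∀ n, Ω n → ℝ := fun n ω => Y n ω * big ε (S.Va ρ' n ω) (S.Va ρ n ω) with hX
  have pκ : ∀ n, Past (S.F n) (ρ n) (S.Va κ n) := fun n =>
    (hS.pastV hκ n).mono (hκ n) (sρ n) (lκ n)
  have pY : ∀ n, Past (S.F n) (ρ n) (Y n) := fun n =>
    (hS.pastV sρ n).comp₂ (pκ n) (sρ n) (big_meas ε)
  have bY : Bdd Y := ⟨fun n => (pY n).measurable (sρ n), 1, fun n ω => big_abs _ _ _⟩
  have pX : ∀ n, Past (S.F n) (ρ' n) (X n) := by
    intro n
    have h1 : Past (S.F n) (ρ' n) (fun ω => big ε (S.Va ρ' n ω) (S.Va ρ n ω)) :=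
      (hS.pastV sρ' n).comp₂ ((hS.pastV sρ n).mono (sρ n) (sρ' n) (lρρ' n)) (sρ' n)
        (big_meas ε)
    exact ((pY n).mono (sρ n) (sρ' n) (lρρ' n)).comp₂ h1 (sρ' n) (f := fun a b => a * b)
      (by fun_prop)
  have X01 : ∀ n ω, 0 ≤ X n ω ∧ X n ω ≤ 1 := fun n ω =>
    ⟨mul_nonneg (big_nonneg _ _ _) (big_nonneg _ _ _),
      mul_le_one₀ (big_le _ _ _) (big_nonneg _ _ _) (big_le _ _ _)⟩
  have bX : Bdd X := ⟨fun n => (pX n).measurable (sρ' n), 1, fun n ω => by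
    rw [Real.norm_eq_abs, abs_of_nonneg (X01 n ω).1]; exact (X01 n ω).2⟩
  refine ⟨X, bX, X01, ?_, ?_⟩
  · obtain ⟨e', he0, he', -, hst⟩ := hS.step T R
    filter_upwards [he'.eventually (gt_mem_nhds hε)] with n hn ω hj
    obtain ⟨j, hj1, hj2, hj3⟩ := hj
    have key : ∀ (α : ℕ), α ≤ j → |S.V n j ω - S.V n (κ n ω) ω| < ε → False := fun _ _ hc => by
      have : S.Va κ n ω = S.V n (κ n ω) ω := rfl
      rw [this] at hj3
      linarith
    have d1 : j < ρ n ω → False := fun hlt => key j le_rfl (nxt_lt hj1 hlt)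
    have hρj : ρ n ω ≤ j := not_lt.1 d1
    have B1 : ε ≤ |S.Va ρ n ω - S.Va κ n ω| := by
      by_contra hc
      have hc' := not_le.1 hc
      have h1 : ρ n ω = κ' n ω := nxt_eq (hle n ω) hc'
      have h2 : j = ρ n ω := by omega
      subst h2
      exact key _ le_rfl hc'
    have hκρ : κ n ω < ρ n ω := by
      rcases (lκ n ω).lt_or_eq with h1 | h1
      · exact h1
      · exfalso
        unfold Va at B1
        rw [← h1, sub_self, abs_zero] at B1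
        linarith
    have B1' : |S.V n (ρ n ω) ω - S.V n (κ n ω) ω| ≤ 2 * ε := by
      obtain ⟨i, hi⟩ : ∃ i, ρ n ω = i + 1 := ⟨ρ n ω - 1, by omega⟩
      have h1 := (hst n ω i (by rw [← hi]; exact tρ.bef n ω)).2.1
      have h2 : |S.V n i ω - S.V n (κ n ω) ω| < ε := nxt_lt (by omega) (by
        change i < ρ n ω
        omega)
      rw [hi]
      have h3 : S.V n (i + 1) ω - S.V n (κ n ω) ω = (S.V n (i + 1) ω - S.V n i ω) +
        (S.V n i ω - S.V n (κ n ω) ω) := by ring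
      rw [h3]
      exact (abs_add_le _ _).trans (by linarith)
    have hρ'j : ρ' n ω ≤ j := by
      by_contra hc
      have h1 := nxt_lt (κ := ρ n) (κ' := κ' n) (V := S.V n) (ε := ε) hρj (not_le.1 hc)
      have h3 : S.V n j ω - S.V n (κ n ω) ω = (S.V n j ω - S.V n (ρ n ω) ω) +
        (S.V n (ρ n ω) ω - S.V n (κ n ω) ω) := by ring
      have h4 := abs_add_le (S.V n j ω - S.V n (ρ n ω) ω) (S.V n (ρ n ω) ω - S.V n (κ n ω) ω)
      have h5 : S.Va κ n ω = S.V n (κ n ω) ω := rfl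
      rw [h5, h3] at hj3
      linarith
    have B2 : ε ≤ |S.Va ρ' n ω - S.Va ρ n ω| := by
      by_contra hc
      have hc' := not_le.1 hc
      have h1 : ρ' n ω = κ' n ω := nxt_eq (lρ n ω) hc'
      have h2 : j = ρ' n ω := by omega
      subst h2
      have h3 : S.V n (ρ' n ω) ω - S.V n (κ n ω) ω = (S.V n (ρ' n ω) ω - S.V n (ρ n ω) ω) +
        (S.V n (ρ n ω) ω - S.V n (κ n ω) ω) := by ring
      have h4 := abs_add_le (S.V n (ρ' n ω) ω - S.V n (ρ n ω) ω)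
        (S.V n (ρ n ω) ω - S.V n (κ n ω) ω)
      have h5 : S.Va κ n ω = S.V n (κ n ω) ω := rfl
      have h6 : |S.V n (ρ' n ω) ω - S.V n (ρ n ω) ω| < ε := hc'
      rw [h5, h3] at hj3
      linarith
    simp only [hX, hY, big, B1, B2, if_true, mul_one]
  · have hTρ : ∀ n ω, S.Ta ρ n ω - S.Ta κ n ω ≤ h + e n := fun n ω => by
      have h1 := hS.Ta_le lρ n ω
      have h2 := hT n ω
      linarith
    have hTρ' : ∀ n ω, S.Ta ρ' n ω - S.Ta ρ n ω ≤ h + e n := fun n ω => by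
      have h1 := hS.Ta_le lρ' n ω
      have h2 := hT n ω
      have h3 := hS.Ta_le lκ n ω
      linarith
    have c1 : LE P U Y ≤ 4 * h / ε ^ 2 * LE P U (fun (n : ℕ) (_ : Ω n) => (1 : ℝ)) :=
      cheb hS hM hU hκ tρ lκ (fun n => Past.const (hκ n) 1) ⟨1, fun n ω => by simp⟩
        (fun n ω => zero_le_one) hh he hTρ hε bY fun n ω => by
          simp only [hY, big]
          split_ifs with h1
          · exact Or.inr ⟨le_rfl, h1⟩
          · exact Or.inl le_rfl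
    rw [LE_const, mul_one] at c1
    have c2 : LE P U X ≤ 4 * h / ε ^ 2 * LE P U Y :=
      cheb hS hM hU sρ tρ' lρρ' pY ⟨1, fun n ω => big_abs _ _ _⟩
        (fun n ω => big_nonneg _ _ _) hh he hTρ' hε bX fun n ω => by
          simp only [hX]
          by_cases h1 : ε ≤ |S.Va ρ' n ω - S.Va ρ n ω|
          · refine Or.inr ⟨?_, h1⟩
            exact mul_le_of_le_one_right (big_nonneg _ _ _) (big_le _ _ _)
          · refine Or.inl ?_
            simp only [big, h1, if_false, mul_zero, le_refl]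
    have h0 : 0 ≤ 4 * h / ε ^ 2 := by positivity
    calc LE P U X ≤ 4 * h / ε ^ 2 * LE P U Y := c2
      _ ≤ 4 * h / ε ^ 2 * (4 * h / ε ^ 2) := mul_le_mul_of_nonneg_left c1 h0
      _ = (4 * h / ε ^ 2) ^ 2 := by ring

end Sys

end Vale.Agent.P153.M1
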