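import Vale.Agent.P153.R2.M1.Tail

/-!
# P153, block M1: deterministic times and the exit index
-/

set_option linter.unusedSectionVars false
set_option linter.unusedVariables false

namespace Vale.Agent.P153.M1

open MeasureTheory Filter Topology Set

namespace Sys

variable {Ω : ℕ → Type*} [mΩ : ∀ n, MeasurableSpace (Ω n)] {S : Sys Ω}
  {P : ∀ n, Measure (Ω n)} [∀ n, IsProbabilityMeasure (P n)] {U : Ultrafilter ℕ}
  {κ κ' κ'' : ∀ n, Ω n → ℕ} {T R : ℝ}

/-- The first index with time at least `s`. -/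
noncomputable def tix (hS : S.Ok) (s : ℝ) (n : ℕ) : Ω n → ℕ :=
  first (fun k ω => s ≤ S.τ n k ω) (fun ω => (hS.unb n ω s).imp fun _ h => h.le)

/-- The exit index of `[0, T] × [-R, R]`. -/
noncomputable def ex (hS : S.Ok) (T R : ℝ) (n : ℕ) : Ω n → ℕ :=
  first (fun k ω => T < S.τ n k ω ∨ R < |S.V n k ω|)
    (fun ω => (hS.unb n ω T).imp fun _ h => Or.inl h)

/-- The index of time `s`, stopped at the exit index. -/
noncomputable def sx (hS : S.Ok) (T R s : ℝ) (n : ℕ) (ω : Ω n) : ℕ :=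
  min (tix hS s n ω) (ex hS T R n ω)

variable (hS : S.Ok)

theorem tix_stop (s : ℝ) (n : ℕ) : IsStop (S.F n) (tix hS s n) :=
  first_isStop _ fun k => hS.adτ n k measurableSet_Ici

theorem ex_St (T R : ℝ) : S.St T R (ex hS T R) := by
  constructor
  · intro n
    apply first_isStop
    intro k
    have h1 : MeasurableSet[S.F n k] {ω | T < S.τ n k ω} := hS.adτ n k measurableSet_Ioi
    have h2 : MeasurableSet[S.F n k] {ω | R < |S.V n k ω|} :=
      (continuous_abs.measurable.comp (hS.adV n k)) measurableSet_Ioi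
    exact h1.union h2
  · intro n ω j hj
    have h := first_min _ ω hj
    exact ⟨not_lt.1 fun hc => h (Or.inl hc), not_lt.1 fun hc => h (Or.inr hc)⟩

theorem sx_stop (T R s : ℝ) (n : ℕ) : IsStop (S.F n) (sx hS T R s n) :=
  (tix_stop hS s n).inf ((ex_St hS T R).stop n)

theorem sx_le_ex (T R s : ℝ) (n : ℕ) (ω : Ω n) : sx hS T R s n ω ≤ ex hS T R n ω :=
  min_le_right _ _

theorem sx_St (T R s : ℝ) : S.St T R (sx hS T R s) :=
  (ex_St hS T R).of_le (sx_stop hS T R s) (sx_le_ex hS T R s)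

theorem tix_mono {s t : ℝ} (hst : s ≤ t) (n : ℕ) (ω : Ω n) : tix hS s n ω ≤ tix hS t n ω :=
  first_le _ ω (hst.trans (first_spec (Q := fun k ω => t ≤ S.τ n k ω) _ ω))

theorem sx_mono {T R s t : ℝ} (hst : s ≤ t) (n : ℕ) (ω : Ω n) :
    sx hS T R s n ω ≤ sx hS T R t n ω :=
  min_le_min_right _ (tix_mono hS hst n ω)

/-- The indicator of the exit through `R`. -/
noncomputable def outR (T R : ℝ) (n : ℕ) (ω : Ω n) : ℝ :=
  if R < |S.Va (ex hS T R) n ω| then 1 else 0

theorem outR_bdd (T R : ℝ) : Bdd (outR hS T R) := by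
  refine ⟨fun n => ?_, 1, fun n ω => ?_⟩
  · unfold outR
    refine Measurable.ite ?_ measurable_const measurable_const
    have h1 : Measurable (fun ω => |S.Va (ex hS T R) n ω|) :=
      continuous_abs.measurable.comp ((hS.pastV (ex_St hS T R).stop n).measurable
        ((ex_St hS T R).stop n))
    exact h1 measurableSet_Ioi
  · unfold outR; split_ifs <;> simp

theorem outR_nonneg (T R : ℝ) (n : ℕ) (ω : Ω n) : 0 ≤ outR hS T R n ω := by
  unfold outR; split_ifs <;> norm_num

theorem outR_le (T R : ℝ) (n : ℕ) (ω : Ω n) : outR hS T R n ω ≤ 1 := by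
  unfold outR; split_ifs <;> norm_num

include hS in
theorem V_zero (n : ℕ) (ω : Ω n) : S.V n 0 ω = 0 := by
  unfold V; rw [hS.zero n ω]; exact hS.W0 n ω

include hS in
theorem τ_nonneg (n k : ℕ) (ω : Ω n) : 0 ≤ S.τ n k ω := by
  rw [← hS.zero n ω]; exact hS.mono n ω (Nat.zero_le k)

/-- The exit through `R` before time `T` has limit probability at most `4 T / R²`. -/
theorem outR_prob (hM : S.AM P) (hU : (U : Filter ℕ) ≤ atTop) {T R : ℝ} (hT : 0 ≤ T)
    (hR : 0 < R) : LE P U (outR hS T R) ≤ 4 * T / R ^ 2 := by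
  obtain ⟨e, he0, he, -, hst⟩ := hS.step T R
  have h1 := cheb (U := U) (κ := fun n _ => 0) hS hM hU (fun n => IsStop.const 0) (ex_St hS T R)
    (fun n ω => Nat.zero_le _) (Y := fun n _ => 1) (fun n => Past.const (IsStop.const 0) 1)
    ⟨1, fun n ω => by simp⟩ (fun n ω => zero_le_one) hT (he.mono_left hU) (fun n ω => ?_) hR
    (outR_bdd hS T R) (fun n ω => ?_)
  · rwa [LE_const, mul_one] at h1
  · have h2 : S.Ta (fun n _ => 0) n ω = 0 := hS.zero n ω
    rw [h2, sub_zero]
    change S.τ n (ex hS T R n ω) ω ≤ T + e n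
    rcases Nat.eq_zero_or_pos (ex hS T R n ω) with h3 | h3
    · rw [h3, hS.zero n ω]
      have := he0 n
      linarith
    · obtain ⟨i, hi⟩ : ∃ i, ex hS T R n ω = i + 1 := ⟨ex hS T R n ω - 1, by omega⟩
      have hb := (ex_St hS T R).bef n ω
      rw [hi] at hb ⊢
      have h4 := (hst n ω i hb).1
      have h5 := (hb i (Nat.lt_succ_self i)).1
      linarith
  · unfold outR
    split_ifs with h2
    · refine Or.inr ⟨le_rfl, ?_⟩
      have h3 : S.Va (fun n _ => 0) n ω = 0 := V_zero hS n ω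
      rw [h3, sub_zero]
      exact h2.le
    · exact Or.inl le_rfl

/-- If the exit is not through `R`, the index of a time up to `T` is reached. -/
theorem sx_eq {T R s : ℝ} (hs : s ≤ T) {n : ℕ} {ω : Ω n} (h : outR hS T R n ω ≠ 1) :
    sx hS T R s n ω = tix hS s n ω := by
  have h1 : ¬ R < |S.Va (ex hS T R) n ω| := fun hc => h (by unfold outR; rw [if_pos hc])
  have h2 := first_spec (Q := fun k ω => T < S.τ n k ω ∨ R < |S.V n k ω|)
    (fun ω => (hS.unb n ω T).imp fun _ h => Or.inl h) ω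
  have h3 : T < S.τ n (ex hS T R n ω) ω := by
    rcases h2 with h2 | h2
    · exact h2
    · exact absurd h2 h1
  exact min_eq_left (first_le _ ω (hs.trans h3.le))

theorem Ta_tix_ge {s : ℝ} (n : ℕ) (ω : Ω n) : s ≤ S.τ n (tix hS s n ω) ω :=
  first_spec (Q := fun k ω => s ≤ S.τ n k ω) _ ω

/-- Estimates for deterministic times. -/
theorem time_est (T R : ℝ) : ∃ e : ℕ → ℝ, (∀ n, 0 ≤ e n) ∧ Tendsto e atTop (𝓝 0) ∧
    (∀ n ω s, 0 ≤ s → S.Ta (sx hS T R s) n ω ≤ s + e n) ∧
    (∀ n ω s t, 0 ≤ s → s ≤ t → t ≤ T →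
      |S.Ta (sx hS T R t) n ω - S.Ta (sx hS T R s) n ω - (t - s)| ≤
        e n + (t - s) * outR hS T R n ω) ∧
    (∀ n ω s, 0 ≤ s → s ≤ T → outR hS T R n ω ≠ 1 →
      |S.W n ω s - S.Va (sx hS T R s) n ω| ≤ e n) := by
  obtain ⟨e, he0, he, -, hst⟩ := hS.step T R
  have c1 : ∀ n ω s, 0 ≤ s → S.Ta (sx hS T R s) n ω ≤ s + e n := by
    intro n ω s hs
    change S.τ n (sx hS T R s n ω) ω ≤ s + e n
    rcases Nat.eq_zero_or_pos (sx hS T R s n ω) with h3 | h3
    · rw [h3, hS.zero n ω]
      have := he0 n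
      linarith
    · obtain ⟨i, hi⟩ : ∃ i, sx hS T R s n ω = i + 1 := ⟨sx hS T R s n ω - 1, by omega⟩
      have hb := (sx_St hS T R s).bef n ω
      rw [hi] at hb ⊢
      have h4 := (hst n ω i hb).1
      have h5 : S.τ n i ω < s := by
        have h6 : i < tix hS s n ω := by
          have := min_le_left (tix hS s n ω) (ex hS T R n ω)
          unfold sx at hi
          omega
        exact not_le.1 (first_min _ ω h6)
      linarith
  have c2 : ∀ n ω s t, 0 ≤ s → s ≤ t → t ≤ T →
      S.Ta (sx hS T R t) n ω - S.Ta (sx hS T R s) n ω ≤ (t - s) + e n := by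
    intro n ω s t hs hst' ht
    rcases le_total (tix hS s n ω) (ex hS T R n ω) with h1 | h1
    · have h2 : sx hS T R s n ω = tix hS s n ω := min_eq_left h1
      have h3 : s ≤ S.Ta (sx hS T R s) n ω := by
        unfold Ta; rw [h2]; exact Ta_tix_ge hS n ω
      have h4 := c1 n ω t (hs.trans hst')
      linarith
    · have h2 : sx hS T R s n ω = ex hS T R n ω := min_eq_right h1
      have h3 : sx hS T R t n ω = ex hS T R n ω := min_eq_right (h1.trans (tix_mono hS hst' n ω))
      have h4 : S.Ta (sx hS T R t) n ω = S.Ta (sx hS T R s) n ω := by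
        unfold Ta; rw [h2, h3]
      rw [h4, sub_self]
      have := he0 n
      linarith
  refine ⟨fun n => 2 * e n, fun n => by have := he0 n; linarith, by simpa using he.const_mul 2,
    fun n ω s hs => ?_, ?_, ?_⟩
  · have h1 := c1 n ω s hs
    have h2 := he0 n
    linarith
  · intro n ω s t hs hst' ht
    have h0 := he0 n
    have h1 := c2 n ω s t hs hst' ht
    have h2 : 0 ≤ S.Ta (sx hS T R t) n ω - S.Ta (sx hS T R s) n ω :=
      sub_nonneg.2 (hS.Ta_le (sx_mono hS hst') n ω)
    by_cases h3 : outR hS T R n ω = 1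
    · rw [h3, mul_one, abs_le]
      constructor <;> linarith
    · have h4 : outR hS T R n ω = 0 := by
        unfold outR at h3 ⊢
        split_ifs with h5
        · rw [if_pos h5] at h3; exact absurd rfl h3
        · rfl
      have h5 : t ≤ S.Ta (sx hS T R t) n ω := by
        unfold Ta; rw [sx_eq hS ht h3]; exact Ta_tix_ge hS n ω
      have h6 := c1 n ω s hs
      rw [h4, mul_zero, abs_le]
      constructor <;> linarith
  · intro n ω s hs hsT h3
    have h0 := he0 n
    have hb := (sx_St hS T R s).bef n ω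
    change |S.W n ω s - S.V n (sx hS T R s n ω) ω| ≤ 2 * e n
    rw [sx_eq hS hsT h3] at hb ⊢
    rcases Nat.eq_zero_or_pos (tix hS s n ω) with h4 | h4
    · have h5 : s = 0 := by
        have := Ta_tix_ge hS (s := s) n ω
        rw [h4, hS.zero n ω] at this
        linarith
      rw [h4, V_zero hS, h5, hS.W0 n ω]
      simp [h0]
    · obtain ⟨i, hi⟩ : ∃ i, tix hS s n ω = i + 1 := ⟨tix hS s n ω - 1, by omega⟩
      have h6 := Ta_tix_ge hS (s := s) n ω
      have h5 : S.τ n i ω < s := not_le.1 (first_min _ ω (show i < tix hS s n ω by omega))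
      rw [hi] at hb h6 ⊢
      obtain ⟨-, h7, h8⟩ := hst n ω i hb
      have h9 := h8 s ⟨h5.le, h6⟩
      have h10 : S.W n ω s - S.V n (i + 1) ω = (S.W n ω s - S.W n ω (S.τ n i ω)) -
        (S.V n (i + 1) ω - S.V n i ω) := by unfold V; ring
      rw [h10]
      exact (abs_sub _ _).trans (by linarith)

end Sys

end Vale.Agent.P153.M1
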